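import Vale.Agent.P134.LI.SD1def
import Vale.Agent.P134.H586.StGw
import Vale.Agent.P134.H930.Geo

/-! P134, R3, S-D1: block T4 (the ball part). -/

set_option linter.all false

namespace Vale.Agent.P134.H3

open Vale.Agent.P134 Vale.Agent.P134.SM Vale.Agent.P134.LI MeasureTheory Filter Topology

lemma far_nhds {B : Set R3} {r s : ℝ} (hrs : s < r) {x : R3} (h : Far B r x) :
    ∀ᶠ y in 𝓝 x, Far B s y := by
  have hc : Continuous (fun y : R3 => eno (x - y)) := continuous_eno.comp (by fun_prop)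
  have h0 : eno (x - x) = 0 := by simp [eno, esq]
  have : ∀ᶠ y in 𝓝 x, eno (x - y) < r - s := by
    refine hc.continuousAt.eventually_lt continuousAt_const ?_
    rw [h0]; linarith
  filter_upwards [this] with y hy b hb
  have h1 := h b hb
  have h2 := H930.eno_sub_le x y b
  linarith

lemma pd_chi_zero {B : Set R3} {W : ℝ} {χ : R3 → ℝ} (hW : 0 < W)
    (chi1 : ∀ x, Far B (7 / 4 * W) x → χ x = 1) {x : R3} (h : Far B (2 * W) x) (i : Fin 3) :
    pd i χ x = 0 := by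
  have : χ =ᶠ[𝓝 x] fun _ => (1 : ℝ) :=
    (far_nhds (by linarith) h).mono (fun y hy => chi1 y hy)
  rw [pd_congr this, pd_const]

lemma int_w_bd {s3 : ℝ} (hs : 0 < s3) {w : ℝ → ℝ} (wb : ∀ s, 0 ≤ w s ∧ w s ≤ 1)
    (ws : ∀ s, s3 ≤ |s| → w s = 0) : 0 ≤ ∫ s, w s ∧ ∫ s, w s ≤ 2 * s3 := by
  refine ⟨integral_nonneg fun s => (wb s).1, ?_⟩
  have e : ∫ s, w s = ∫ s in Set.Ioo (-s3) s3, w s := by
    rw [setIntegral_eq_integral_of_forall_compl_eq_zero]
    intro s hs'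
    apply ws
    by_contra hlt
    push Not at hlt
    exact hs' (abs_lt.mp hlt)
  rw [e]
  have h := norm_setIntegral_le_of_norm_le_const (μ := volume) (f := w) (C := 1)
    (s := Set.Ioo (-s3) s3) (by simp)
    (fun s _ => by rw [Real.norm_eq_abs, abs_of_nonneg (wb s).1]; exact (wb s).2)
  have h2 : volume.real (Set.Ioo (-s3) s3) = 2 * s3 := by
    rw [Measure.real, Real.volume_Ioo, ENNReal.toReal_ofReal (by linarith)]; ring
  rw [h2] at h
  exact (le_abs_self _).trans (by simpa using h)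

lemma ff_sq_le {u : R3 → ℝ} (h1 : ∀ x, |u x| < 1) (x : R3) : ff u x ^ 2 ≤ 1 / 2 := by
  have h2 := abs_lt.mp (h1 x)
  have h3 : u x ^ 2 ≤ 1 := by nlinarith
  have h4 : 0 ≤ u x ^ 2 := sq_nonneg _
  unfold ff
  rw [div_pow, Real.sq_sqrt (by norm_num)]
  have : (1 - u x ^ 2) ^ 2 ≤ 1 := by nlinarith
  linarith

/-- pointwise bound near the bad zone. -/
lemma t4_pt {C1 R W lam G β f χx e : ℝ} {a b c : Fin 3 → ℝ} (hC : 0 < C1) (hR : 1 ≤ R)
    (hW : 1 ≤ W) (hl : 0 < lam) (hG : 0 ≤ G) (hβ : 0 ≤ β ∧ β ≤ 1) (hf : f ^ 2 ≤ 1 / 2)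
    (hχ : 0 ≤ χx ∧ χx ≤ 1) (he : 0 ≤ e) (heR : e ≤ 1 / R)
    (ha : ∑ i, a i ^ 2 ≤ lam ^ 2 * G ^ 2) (hb : ∀ i, |b i| ≤ C1 / R) (hc : ∀ i, |c i| ≤ C1 / W) :
    (1 - χx) * (f ^ 2 * (∑ i, (G * b i + β * a i) ^ 2) + e * (G * β * f) ^ 2)
      - f ^ 2 * (G * β * ∑ i, (G * b i + β * a i) * c i)
    ≤ ((5 * C1 ^ 2 + 1) / R + (lam ^ 2 + 2 * C1 * lam)) * G ^ 2 := by
  have hf0 : 0 ≤ f ^ 2 := sq_nonneg f
  have hR0 : 0 < R := by linarith
  have hW0 : 0 < W := by linarith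
  set p := C1 / R with hp
  set q := C1 / W with hq
  have hp0 : 0 < p := by positivity
  have hq0 : 0 < q := by positivity
  have hqC : q ≤ C1 := by rw [hq]; exact div_le_self hC.le hW
  have hpC : p ≤ C1 := by rw [hp]; exact div_le_self hC.le hR
  have hai : ∀ i, |a i| ≤ lam * G := by
    intro i
    have h1 : a i ^ 2 ≤ ∑ i, a i ^ 2 :=
      Finset.single_le_sum (f := fun i => a i ^ 2) (fun j _ => sq_nonneg _) (Finset.mem_univ i)
    exact abs_le_of_sq_le_sq (by nlinarith) (by positivity)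
  have hβ2 : β ^ 2 ≤ 1 := by nlinarith [hβ.1, hβ.2]
  have hS : ∑ i, (G * b i + β * a i) ^ 2 ≤ 6 * p ^ 2 * G ^ 2 + 2 * (lam ^ 2 * G ^ 2) := by
    have h1 : ∀ i, (G * b i + β * a i) ^ 2 ≤ 2 * G ^ 2 * p ^ 2 + 2 * a i ^ 2 := by
      intro i
      have h2 : b i ^ 2 ≤ p ^ 2 := sq_le_sq' (by linarith [(abs_le.mp (hb i)).1])
        (abs_le.mp (hb i)).2
      have h3 : (G * b i + β * a i) ^ 2 ≤ 2 * (G * b i) ^ 2 + 2 * (β * a i) ^ 2 := by
        nlinarith [sq_nonneg (G * b i - β * a i)]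
      have h4 : (G * b i) ^ 2 ≤ G ^ 2 * p ^ 2 := by
        rw [mul_pow]; exact mul_le_mul_of_nonneg_left h2 (sq_nonneg G)
      have h5 : (β * a i) ^ 2 ≤ a i ^ 2 := by
        rw [mul_pow]; nlinarith [sq_nonneg (a i)]
      linarith
    calc ∑ i, (G * b i + β * a i) ^ 2 ≤ ∑ i : Fin 3, (2 * G ^ 2 * p ^ 2 + 2 * a i ^ 2) :=
          Finset.sum_le_sum fun i _ => h1 i
      _ = 6 * p ^ 2 * G ^ 2 + 2 * ∑ i, a i ^ 2 := by
          have e : ∑ i : Fin 3, 2 * a i ^ 2 = 2 * ∑ i, a i ^ 2 := (Finset.mul_sum _ _ _).symm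
          rw [Finset.sum_add_distrib, e, Finset.sum_const, Finset.card_univ,
            Fintype.card_fin, nsmul_eq_mul]
          push_cast; ring
      _ ≤ _ := by linarith
  have hT : |∑ i, (G * b i + β * a i) * c i| ≤ 3 * (G * p + lam * G) * q := by
    refine (Finset.abs_sum_le_sum_abs _ _).trans ?_
    have h1 : ∀ i, |(G * b i + β * a i) * c i| ≤ (G * p + lam * G) * q := by
      intro i
      rw [abs_mul]
      refine mul_le_mul ?_ (hc i) (abs_nonneg _) (by positivity)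
      refine (abs_add_le _ _).trans ?_
      rw [abs_mul, abs_mul, abs_of_nonneg hG, abs_of_nonneg hβ.1]
      have := mul_le_mul_of_nonneg_left (hb i) hG
      have h2 : β * |a i| ≤ 1 * (lam * G) :=
        mul_le_mul hβ.2 (hai i) (abs_nonneg _) zero_le_one
      linarith
    calc ∑ i, |(G * b i + β * a i) * c i| ≤ ∑ i : Fin 3, (G * p + lam * G) * q :=
          Finset.sum_le_sum fun i _ => h1 i
      _ = _ := by simp; ring
  have hS0 : 0 ≤ ∑ i, (G * b i + β * a i) ^ 2 := Finset.sum_nonneg fun i _ => sq_nonneg _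
  have e1 : f ^ 2 * (∑ i, (G * b i + β * a i) ^ 2)
      ≤ 3 * p ^ 2 * G ^ 2 + lam ^ 2 * G ^ 2 := by
    have := mul_le_mul hf hS hS0 (by norm_num)
    linarith
  have e2 : e * (G * β * f) ^ 2 ≤ 1 / R * (G ^ 2 * (1 / 2)) := by
    refine mul_le_mul heR ?_ (sq_nonneg _) (by positivity)
    have h1 : (G * β * f) ^ 2 = G ^ 2 * (β ^ 2 * f ^ 2) := by ring
    rw [h1]
    refine mul_le_mul_of_nonneg_left ?_ (sq_nonneg _)
    have := mul_le_mul hβ2 hf hf0 zero_le_one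
    linarith
  have e12 : (1 - χx) * (f ^ 2 * (∑ i, (G * b i + β * a i) ^ 2) + e * (G * β * f) ^ 2)
      ≤ 3 * p ^ 2 * G ^ 2 + lam ^ 2 * G ^ 2 + 1 / R * (G ^ 2 * (1 / 2)) := by
    have h0 : 0 ≤ f ^ 2 * (∑ i, (G * b i + β * a i) ^ 2) + e * (G * β * f) ^ 2 := by positivity
    nlinarith [hχ.1, hχ.2]
  have e3 : -(f ^ 2 * (G * β * ∑ i, (G * b i + β * a i) * c i))
      ≤ 1 / 2 * (G * (3 * (G * p + lam * G) * q)) := by
    refine (neg_le_abs _).trans ?_
    rw [abs_mul, abs_mul, abs_mul, abs_of_nonneg hf0, abs_of_nonneg hG, abs_of_nonneg hβ.1]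
    have h2 : G * β ≤ G := by nlinarith [hβ.2]
    have h3 : 0 ≤ G * β := mul_nonneg hG hβ.1
    exact mul_le_mul hf (mul_le_mul h2 hT (abs_nonneg _) hG)
      (mul_nonneg h3 (abs_nonneg _)) (by norm_num)
  have hpR : p * R = C1 := by rw [hp]; field_simp
  have hG2 : 0 ≤ G ^ 2 := sq_nonneg G
  have f1 : p ^ 2 ≤ C1 ^ 2 / R := by
    have : C1 ^ 2 / R = p * C1 := by rw [hp]; ring
    rw [this, sq]; exact mul_le_mul_of_nonneg_left hpC hp0.le
  have f2 : p * q ≤ C1 ^ 2 / R := by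
    have : C1 ^ 2 / R = p * C1 := by rw [hp]; ring
    rw [this]; exact mul_le_mul_of_nonneg_left hqC hp0.le
  have f3 : lam * q ≤ lam * C1 := mul_le_mul_of_nonneg_left hqC hl.le
  have f4 : ((5 * C1 ^ 2 + 1) / R + (lam ^ 2 + 2 * C1 * lam)) * G ^ 2
      = (5 * (C1 ^ 2 / R) + 1 / R + lam ^ 2 + 2 * (lam * C1)) * G ^ 2 := by ring
  rw [f4]
  have f5 : 0 < 1 / R := by positivity
  have f6 : 3 * p ^ 2 + lam ^ 2 + 1 / R * (1 / 2) + 3 / 2 * (p * q) + 3 / 2 * (lam * q)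
      ≤ 5 * (C1 ^ 2 / R) + 1 / R + lam ^ 2 + 2 * (lam * C1) := by
    have g1 : 0 < C1 ^ 2 / R := by positivity
    have g2 : 0 < lam * C1 := by positivity
    linarith
  have f7 := mul_le_mul_of_nonneg_right f6 hG2
  have f8 : 1 / 2 * (G * (3 * (G * p + lam * G) * q))
      = (3 / 2 * (p * q) + 3 / 2 * (lam * q)) * G ^ 2 := by ring
  have f9 : 3 * p ^ 2 * G ^ 2 + lam ^ 2 * G ^ 2 + 1 / R * (G ^ 2 * (1 / 2))
      = (3 * p ^ 2 + lam ^ 2 + 1 / R * (1 / 2)) * G ^ 2 := by ring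
  rw [f8] at e3
  rw [f9] at e12
  have f10 : (3 * p ^ 2 + lam ^ 2 + 1 / R * (1 / 2) + 3 / 2 * (p * q) + 3 / 2 * (lam * q)) * G ^ 2
      = (3 * p ^ 2 + lam ^ 2 + 1 / R * (1 / 2)) * G ^ 2
        + (3 / 2 * (p * q) + 3 / 2 * (lam * q)) * G ^ 2 := by ring
  rw [f10] at f7
  linarith only [e12, e3, f7]

theorem stT4 : StT4 := by
  intro s3 C1 hs3 hC1
  refine ⟨2 * s3 * (128 * (1 + 2 * C1)), by positivity, ?_⟩
  intro CX δ W lam u B η w χ om hW hlW hD
  have hl := hD.lam0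
  have hW0 : 0 < W := by linarith
  have hl1 : lam ≤ 1 / 20 := by nlinarith
  obtain ⟨hGcd, hGb, hGgs, -, hGint, -, hGfar, -⟩ := H586.stGw lam hl (by linarith)
  set IG := ∫ x, Gw lam x ^ 2 with hIG
  have hIG0 : 0 ≤ IG := integral_nonneg fun x => sq_nonneg _
  set Sb := ∑' b : B, Gw lam b ^ 2 with hSb
  have hSb0 : 0 ≤ Sb := tsum_nonneg fun b => sq_nonneg _
  refine ⟨2 * s3 * ((5 * C1 ^ 2 + 1) * IG), ?_⟩
  intro R b hb e he heR
  have hR0 : 0 < R := by linarith [hb.R1]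
  obtain ⟨hw0, hw1⟩ := int_w_bd hs3 hD.wb hD.ws
  have hU : MeasurableSet {x | ¬ Far B (2 * W) x} :=
    (H586.measurableSet_Far B (2 * W)).compl
  have hGd : Differentiable ℝ (Gw lam) := (hGcd 1).differentiable (by norm_num)
  have hbd : Differentiable ℝ b := hb.b2.differentiable (by norm_num)
  -- pointwise bound
  set J : R3 → ℝ := fun x => (5 * C1 ^ 2 + 1) / R * Gw lam x ^ 2
    + {x | ¬ Far B (2 * W) x}.indicator (fun x => (lam ^ 2 + 2 * C1 * lam) * Gw lam x ^ 2) x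
    with hJ
  have hpt : ∀ x, (1 - χ x) * (ff u x ^ 2 * gs (fun y => Gw lam y * b y) x
          + e * (Gw lam x * b x * ff u x) ^ 2)
        - ff u x ^ 2 * (Gw lam x * b x * gg (fun y => Gw lam y * b y) χ x) ≤ J x := by
    intro x
    by_cases hx : Far B (2 * W) x
    · have h1 : χ x = 1 := hD.chi1 x (fun b hb => by linarith [hx b hb])
      have h2 : gg (fun y => Gw lam y * b y) χ x = 0 := by
        unfold gg
        refine Finset.sum_eq_zero fun i _ => ?_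
        rw [pd_chi_zero hW0 hD.chi1 hx i, mul_zero]
      have h3 : x ∉ {x | ¬ Far B (2 * W) x} := fun h => h hx
      have h4 : 0 ≤ J x := by
        simp only [hJ, Set.indicator_of_notMem h3]
        positivity
      rw [h1, h2]; simpa using h4
    · have h3 : x ∈ {x | ¬ Far B (2 * W) x} := hx
      have hpd : ∀ i, pd i (fun y => Gw lam y * b y) x
          = Gw lam x * pd i b x + b x * pd i (Gw lam) x := fun i => pd_mul (hGd x) (hbd x)
      have key := t4_pt (a := fun i => pd i (Gw lam) x) (b := fun i => pd i b x)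
        (c := fun i => pd i χ x) hC1 hb.R1 hW hl (hGb x).1.le (hb.bb x) (ff_sq_le hD.hs.lt x)
        (hD.chib x) he heR (hGgs x) (hb.bd x) (hD.chid x)
      simp only [hJ, Set.indicator_of_mem h3]
      unfold gs gg
      simp only [hpd]
      refine key.trans (le_of_eq ?_)
      ring
  have hJi : Integrable J := by
    refine (hGint.const_mul _).add ?_
    exact (hGint.const_mul _).indicator hU
  have hJ0 : ∀ x, 0 ≤ J x := by
    intro x
    simp only [hJ]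
    refine add_nonneg (by positivity) (Set.indicator_nonneg (fun y _ => by positivity) x)
  have hIJ : ∫ x, J x ≤ (5 * C1 ^ 2 + 1) / R * IG + (lam ^ 2 + 2 * C1 * lam) * (128 * W ^ 3 * Sb) := by
    have e1 : ∫ x, J x = (5 * C1 ^ 2 + 1) / R * IG
        + (lam ^ 2 + 2 * C1 * lam) * ∫ x in {x | ¬ Far B (2 * W) x}, Gw lam x ^ 2 := by
      simp only [hJ]
      rw [integral_add (hGint.const_mul _) ((hGint.const_mul _).indicator hU),
        integral_const_mul, integral_indicator hU, integral_const_mul]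
    rw [e1]
    have e2 := hGfar B hD.latt (2 * W) (by linarith)
    have e3 : Real.exp (2 * lam * (2 * W)) ≤ 2 := by
      have : 2 * lam * (2 * W) ≤ 1 / 5 := by nlinarith
      calc Real.exp (2 * lam * (2 * W)) ≤ Real.exp (1 / 5) := Real.exp_le_exp.mpr this
        _ ≤ 2 := by
          have h1 : Real.exp (1 / 5) ≤ 1 / (1 - 1 / 5) := by
            have := Real.add_one_le_exp (-(1 / 5 : ℝ))
            rw [Real.exp_neg] at this
            have hp := Real.exp_pos (1 / 5 : ℝ)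
            rw [le_div_iff₀ (by norm_num)]
            have h3 : (1 - 1 / 5) ≤ (Real.exp (1 / 5))⁻¹ := by linarith
            calc Real.exp (1 / 5) * (1 - 1 / 5) ≤ Real.exp (1 / 5) * (Real.exp (1 / 5))⁻¹ :=
                  mul_le_mul_of_nonneg_left h3 hp.le
              _ = 1 := mul_inv_cancel₀ hp.ne'
          linarith
    have e4 : 8 * (2 * W) ^ 3 * Real.exp (2 * lam * (2 * W)) * Sb ≤ 128 * W ^ 3 * Sb := by
      have h5 : 8 * (2 * W) ^ 3 * Real.exp (2 * lam * (2 * W)) ≤ 8 * (2 * W) ^ 3 * 2 :=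
        mul_le_mul_of_nonneg_left e3 (by positivity)
      have h6 : 8 * (2 * W) ^ 3 * 2 = 128 * W ^ 3 := by ring
      rw [h6] at h5
      exact mul_le_mul_of_nonneg_right h5 hSb0
    have e5 : 0 ≤ lam ^ 2 + 2 * C1 * lam := by positivity
    have e6 := mul_le_mul_of_nonneg_left (e2.trans e4) e5
    linarith
  have hII : (∫ x, ((1 - χ x) * (ff u x ^ 2 * gs (fun y => Gw lam y * b y) x
          + e * (Gw lam x * b x * ff u x) ^ 2)
        - ff u x ^ 2 * (Gw lam x * b x * gg (fun y => Gw lam y * b y) χ x))) ≤ ∫ x, J x := by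
    by_cases hi : Integrable (fun x => ((1 - χ x) * (ff u x ^ 2 * gs (fun y => Gw lam y * b y) x
          + e * (Gw lam x * b x * ff u x) ^ 2)
        - ff u x ^ 2 * (Gw lam x * b x * gg (fun y => Gw lam y * b y) χ x)))
    · exact integral_mono hi hJi hpt
    · rw [integral_undef hi]; exact integral_nonneg hJ0
  set Q := (5 * C1 ^ 2 + 1) / R * IG + (lam ^ 2 + 2 * C1 * lam) * (128 * W ^ 3 * Sb) with hQ
  have hQ0 : 0 ≤ Q := by positivity
  have hfin : (∫ s, w s) * (∫ x, ((1 - χ x) * (ff u x ^ 2 * gs (fun y => Gw lam y * b y) x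
          + e * (Gw lam x * b x * ff u x) ^ 2)
        - ff u x ^ 2 * (Gw lam x * b x * gg (fun y => Gw lam y * b y) χ x))) ≤ 2 * s3 * Q :=
    (mul_le_mul_of_nonneg_left (hII.trans hIJ) hw0).trans (mul_le_mul_of_nonneg_right hw1 hQ0)
  refine hfin.trans ?_
  have h7 : lam ^ 2 ≤ lam := by nlinarith
  have h8 : (lam ^ 2 + 2 * C1 * lam) * (128 * W ^ 3 * Sb)
      ≤ (128 * (1 + 2 * C1)) * lam * W ^ 4 * Sb := by
    have h9 : lam ^ 2 + 2 * C1 * lam ≤ (1 + 2 * C1) * lam := by nlinarith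
    have h10 : W ^ 3 ≤ W ^ 4 := pow_le_pow_right₀ hW (by norm_num)
    have h11 : 128 * W ^ 3 * Sb ≤ 128 * W ^ 4 * Sb := by
      have := mul_le_mul_of_nonneg_right h10 hSb0
      linarith
    calc (lam ^ 2 + 2 * C1 * lam) * (128 * W ^ 3 * Sb)
        ≤ ((1 + 2 * C1) * lam) * (128 * W ^ 4 * Sb) :=
          mul_le_mul h9 h11 (by positivity) (by positivity)
      _ = _ := by ring
  have h12 : 2 * s3 * Q = 2 * s3 * ((5 * C1 ^ 2 + 1) * IG) / R
      + 2 * s3 * ((lam ^ 2 + 2 * C1 * lam) * (128 * W ^ 3 * Sb)) := by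
    rw [hQ]; ring
  rw [h12]
  have h13 := mul_le_mul_of_nonneg_left h8 (show (0:ℝ) ≤ 2 * s3 by positivity)
  have h14 : 2 * s3 * ((128 * (1 + 2 * C1)) * lam * W ^ 4 * Sb)
      = 2 * s3 * (128 * (1 + 2 * C1)) * lam * W ^ 4 * Sb := by ring
  rw [h14] at h13
  linarith

end Vale.Agent.P134.H3
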