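import Vale.Agent.P134.H3.NP
import Vale.Agent.P134.H160.Bounds

set_option linter.all false

open MeasureTheory Filter Topology

namespace Vale.Agent.P134.H3

open Vale.Agent.P134 Vale.Agent.P134.H160
open Vale.Agent.P134.H891 (Psi continuous_Psi ph)
open Vale.Agent.P134.H370 (Flat TL TILT)

variable {m : ℕ}

theorem exists_Bds (m : ℕ) : ∃ C : ℝ, 1 ≤ C ∧ Bds m C := by
  choose C1 hC1 h1 using fun p : Fin (m + 1) => hsl_bd (m := m) p
  choose C2 hC2 h2 using fun p : Fin (m + 1) => gsl_bd (m := m) p (m + 2)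
  choose C3 hC3 h3 using fun p : Fin (m + 1) => hsl_sub (m := m) p
  have hP := Psi_one_pos
  have s1 : ∀ p, C1 p ≤ ∑ q, C1 q := fun p =>
    Finset.single_le_sum (fun q _ => (hC1 q).le) (Finset.mem_univ p)
  have s2 : ∀ p, C2 p ≤ ∑ q, C2 q := fun p =>
    Finset.single_le_sum (fun q _ => (hC2 q).le) (Finset.mem_univ p)
  have s3 : ∀ p, C3 p ≤ ∑ q, C3 q := fun p =>
    Finset.single_le_sum (fun q _ => (hC3 q).le) (Finset.mem_univ p)
  have n1 : 0 ≤ ∑ q, C1 q := Finset.sum_nonneg fun q _ => (hC1 q).le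
  have n2 : 0 ≤ ∑ q, C2 q := Finset.sum_nonneg fun q _ => (hC2 q).le
  have n3 : 0 ≤ ∑ q, C3 q := Finset.sum_nonneg fun q _ => (hC3 q).le
  have n4 : 0 ≤ 2 * (Psi 1)⁻¹ * (m + 1) := by positivity
  refine ⟨(∑ q, C1 q) + (∑ q, C2 q) + (∑ q, C3 q) + 2 * (Psi 1)⁻¹ * (m + 1) + 1, by linarith, ?_⟩
  intro u p a R H hu hR hH hHR ha hF
  have hR0 : 0 < R := by linarith
  refine ⟨zR R, zR_contDiff R, zR_hasCompactSupport hR0, ?_, ?_, ?_, ?_⟩
  · intro y hy
    refine (h1 p u a R H hu hR0 hH hF y hy).trans ?_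
    apply mul_le_mul_of_nonneg_right _ (by linarith)
    linarith [s1 p]
  · refine (fsl_bd hu p hR0).trans ?_
    have hT : 0 ≤ TILT u p (4 * R) := integral_nonneg fun x =>
      mul_nonneg (TL_nonneg' u p x) (H891.ph_nonneg _ x)
    apply mul_le_mul_of_nonneg_right _ hT
    linarith
  · intro y hy
    refine (h2 p u a R H hu hR0 hH hHR ha hF y hy).trans ?_
    apply div_le_div_of_nonneg_right _ (by positivity)
    linarith [s2 p]
  · intro y hy
    have h4 := h3 p u a R H hu hR0 hH hHR ha hF y hy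
    have e : DL p u R a y = ∫ s in Set.Icc (-R) R, gst u p a (ins p s y) := by
      unfold DL
      rw [intervalIntegral.integral_of_le (by linarith), integral_Icc_eq_integral_Ioc]
      congr 1
      funext s
      unfold stp gst
      simp
    rw [e]
    refine h4.trans ?_
    linarith [s3 p]

/-- **New plane** (blocks 2.4 + 2.5 + 2.6). -/
theorem exists_NPlane (hm : 0 < m) : ∃ C : ℝ, 1 ≤ C ∧ NPlane m C := by
  obtain ⟨C, hC, hB⟩ := exists_Bds m
  exact NP_of hm hC hB

end Vale.Agent.P134.H3
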