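import Vale.Agent.P134.H3.Moll

set_option linter.all false

open MeasureTheory Filter Topology

namespace Vale.Agent.P134.H3

open Vale.Agent.P134

variable {N : ℕ}

lemma pd_dil {F : (Fin N → ℝ) → ℝ} (hF : Differentiable ℝ F) (y : Fin N → ℝ) (t : ℝ)
    (z : Fin N → ℝ) (i : Fin N) :
    pd i (fun z => F (y + t • z)) z = t * pd i F (y + t • z) := by
  unfold pd
  have h1 : HasFDerivAt (fun z : Fin N → ℝ => y + t • z)
      (t • ContinuousLinearMap.id ℝ (Fin N → ℝ)) z :=
    ((hasFDerivAt_id z).const_smul t).const_add y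
  have h2 := (hF (y + t • z)).hasFDerivAt.comp z h1
  have h3 : (fun z : Fin N → ℝ => F (y + t • z)) = F ∘ fun z => y + t • z := rfl
  rw [h3, h2.fderiv]
  simp

lemma dil_contDiff {F : (Fin N → ℝ) → ℝ} {k : ℕ} (hF : ContDiff ℝ k F) (y : Fin N → ℝ) (t : ℝ) :
    ContDiff ℝ k (fun z => F (y + t • z)) :=
  hF.comp (contDiff_const.add (contDiff_id.const_smul t))

lemma int_mo_aux {G : (Fin N → ℝ) → ℝ} (hG : ContDiff ℝ 1 G) (y : Fin N → ℝ) (t : ℝ) (i : Fin N) :
    ∫ z, mo z * (z i * G (y + t • z)) = t * ∫ z, po z * pd i G (y + t • z) := by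
  have h := integral_mul_pd (i := i) (dil_contDiff (k := 1) hG y t) (po_contDiff (N := N) 1) po_hcs
  have h1 : ∫ z, mo z * (z i * G (y + t • z)) = -∫ z, G (y + t • z) * pd i po z := by
    rw [← integral_neg]
    apply integral_congr_ae
    refine Eventually.of_forall fun z => ?_
    simp only
    rw [pd_po]; ring
  rw [h1, h, neg_neg, ← integral_const_mul]
  apply integral_congr_ae
  refine Eventually.of_forall fun z => ?_
  simp only
  rw [pd_dil (hG.differentiable (by norm_num))]
  ring

lemma integrable_mo_mul {G : (Fin N → ℝ) → ℝ} (hG : Continuous G) :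
    Integrable (fun z => mo z * G z) :=
  (((mo_contDiff 0).continuous).mul hG).integrable_of_hasCompactSupport mo_hcs.mul_right

lemma integrable_po_mul {G : (Fin N → ℝ) → ℝ} (hG : Continuous G) :
    Integrable (fun z => po z * G z) :=
  (((po_contDiff 0).continuous).mul hG).integrable_of_hasCompactSupport po_hcs.mul_right

variable {h g : (Fin N → ℝ) → ℝ} {f : Fin N → (Fin N → ℝ) → ℝ}

lemma key_id (hh : ContDiff ℝ 2 h) (hf : ∀ i, ContDiff ℝ 1 (f i)) (hg : Continuous g)
    (heq : ∀ y, ∑ i, pd i (pd i h) y = ∑ i, pd i (f i) y + g y) (y : Fin N → ℝ) (t : ℝ) :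
    ∫ z, mo z * ∑ i, z i * pd i h (y + t • z) =
      (∫ z, mo z * ∑ i, z i * f i (y + t • z)) + t * ∫ z, po z * g (y + t • z) := by
  have e : ∀ G : Fin N → (Fin N → ℝ) → ℝ, (∀ i, ContDiff ℝ 1 (G i)) →
      ∫ z, mo z * ∑ i, z i * G i (y + t • z) = t * ∫ z, po z * ∑ i, pd i (G i) (y + t • z) := by
    intro G hG
    have hc : ∀ i, Continuous fun z : Fin N → ℝ => z i * G i (y + t • z) := fun i =>
      (continuous_apply i).mul ((hG i).continuous.comp (by fun_prop))
    have hc2 : ∀ i, Continuous fun z : Fin N → ℝ => pd i (G i) (y + t • z) := fun i =>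
      (continuous_pd (hG i)).comp (by fun_prop)
    simp_rw [Finset.mul_sum]
    rw [integral_finset_sum _ fun i _ => integrable_mo_mul (hc i),
      integral_finset_sum _ fun i _ => integrable_po_mul (hc2 i), Finset.mul_sum]
    exact Finset.sum_congr rfl fun i _ => int_mo_aux (hG i) y t i
  rw [e (fun i => pd i h) fun i => contDiff_pd_one hh, e f hf]
  have hc2 : ∀ i, Continuous fun z : Fin N → ℝ => pd i (f i) (y + t • z) := fun i =>
    (continuous_pd (hf i)).comp (by fun_prop)
  have hc3 : Continuous fun z : Fin N → ℝ => g (y + t • z) := hg.comp (by fun_prop)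
  have hc4 : Continuous fun z : Fin N → ℝ => ∑ i, pd i (f i) (y + t • z) :=
    continuous_finset_sum _ fun i _ => hc2 i
  rw [← mul_add, ← integral_add (integrable_po_mul hc4) (integrable_po_mul hc3)]
  congr 1
  apply integral_congr_ae
  refine Eventually.of_forall fun z => ?_
  simp only
  rw [heq]; ring

lemma integral_mo_mul_eq {G : (Fin N → ℝ) → ℝ} :
    ∫ z, mo z * G z = ∫ z in KK N, mo z * G z := by
  rw [setIntegral_eq_integral_of_forall_compl_eq_zero]
  intro z hz
  rw [mo_zero hz, zero_mul]

lemma integral_po_mul_eq {G : (Fin N → ℝ) → ℝ} :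
    ∫ z, po z * G z = ∫ z in KK N, po z * G z := by
  rw [setIntegral_eq_integral_of_forall_compl_eq_zero]
  intro z hz
  rw [po_zero hz, zero_mul]

lemma diff_id (hN : 0 < N) (hh : ContDiff ℝ 2 h) (y : Fin N → ℝ) {T : ℝ} (hT : 0 ≤ T) :
    (∫ z, mo z * h (y + T • z)) - h y =
      ∫ t in Set.Icc 0 T, ∫ z, mo z * ∑ i, z i * pd i h (y + t • z) := by
  have hhc : Continuous h := hh.continuous
  have hpc : ∀ i, Continuous (pd i h) := fun i => continuous_pd (hh.of_le (by norm_num))
  have h1 : ∀ z : Fin N → ℝ, h (y + T • z) - h y =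
      ∫ t in Set.Icc 0 T, ∑ i, z i * pd i h (y + t • z) := by
    intro z
    have hd : ∀ t : ℝ, HasDerivAt (fun t : ℝ => h (y + t • z)) (∑ i, z i * pd i h (y + t • z)) t := by
      intro t
      have h2 : HasDerivAt (fun t : ℝ => y + t • z) z t := by
        simpa using ((hasDerivAt_id t).smul_const z).const_add y
      have h3 := ((hh.differentiable (by norm_num)) (y + t • z)).hasFDerivAt.comp_hasDerivAt t h2
      rw [fderiv_eq_sum_pd] at h3
      exact h3
    have hcont : Continuous fun t : ℝ => ∑ i, z i * pd i h (y + t • z) :=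
      continuous_finset_sum _ fun i _ => continuous_const.mul ((hpc i).comp (by fun_prop))
    rw [integral_Icc_eq_integral_Ioc, ← intervalIntegral.integral_of_le hT,
      intervalIntegral.integral_eq_sub_of_hasDerivAt (fun t _ => hd t)
        (hcont.intervalIntegrable _ _)]
    simp
  have h2 : (∫ z, mo z * h (y + T • z)) - h y = ∫ z, mo z * (h (y + T • z) - h y) := by
    simp_rw [mul_sub]
    rw [integral_sub (integrable_mo_mul (by fun_prop)) (integrable_mo_mul continuous_const),
      integral_mul_const, integral_mo hN, one_mul]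
  rw [h2, integral_mo_mul_eq]
  simp_rw [h1]
  have h3 : ∀ z : Fin N → ℝ, mo z * ∫ t in Set.Icc 0 T, ∑ i, z i * pd i h (y + t • z) =
      ∫ t in Set.Icc 0 T, mo z * ∑ i, z i * pd i h (y + t • z) := fun z => by
    rw [integral_const_mul]
  simp_rw [h3]
  rw [integral_integral_swap]
  · apply integral_congr_ae
    refine Eventually.of_forall fun t => ?_
    simp only
    rw [integral_mo_mul_eq]
  · rw [Measure.prod_restrict]
    apply ContinuousOn.integrableOn_compact (isCompact_KK.prod isCompact_Icc)
    apply Continuous.continuousOn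
    simp only [Function.uncurry_def]
    apply Continuous.mul ((mo_contDiff 0).continuous.comp continuous_fst)
    refine continuous_finset_sum _ fun i _ => ?_
    exact ((continuous_apply i).comp continuous_fst).mul ((hpc i).comp (by fun_prop))

/-- parametric convolution estimate -/
lemma par_le {F : (Fin N → ℝ) → ℝ} (hF : Continuous F) (hF0 : ∀ x, 0 ≤ F x) {T : ℝ} (hT : 0 ≤ T)
    {A A' : Set (Fin N → ℝ)} (hA : IsCompact A) (hA' : IsCompact A')
    (hs : ∀ y ∈ A, ∀ t ∈ Set.Icc 0 T, ∀ z ∈ KK N, y + t • z ∈ A') :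
    ∫ y in A, ∫ t in Set.Icc 0 T, ∫ z in KK N, F (y + t • z) ≤
      T * (volume (KK N)).toReal * ∫ x in A', F x := by
  have hKK := isCompact_KK (N := N)
  have hQ : IsCompact (Set.Icc (0:ℝ) T ×ˢ KK N) := isCompact_Icc.prod hKK
  have e : ∀ y : Fin N → ℝ, ∫ t in Set.Icc 0 T, ∫ z in KK N, F (y + t • z) =
      ∫ p in Set.Icc (0:ℝ) T ×ˢ KK N, F (y + p.1 • p.2) ∂(volume.prod volume) := by
    intro y
    rw [setIntegral_prod]
    apply ContinuousOn.integrableOn_compact hQ
    apply Continuous.continuousOn
    fun_prop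
  simp_rw [e]
  rw [integral_integral_swap]
  · have h1 : ∫ p in Set.Icc (0:ℝ) T ×ˢ KK N, (∫ y in A, F (y + p.1 • p.2)) ∂(volume.prod volume)
        ≤ ∫ p in Set.Icc (0:ℝ) T ×ˢ KK N, (∫ x in A', F x) ∂(volume.prod volume) := by
      apply setIntegral_mono_on
      · apply ContinuousOn.integrableOn_compact hQ
        apply Continuous.continuousOn
        apply continuous_parametric_integral_of_continuous _ hA
        simp only [Function.uncurry_def]
        fun_prop
      · exact integrableOn_const hQ.measure_lt_top.ne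
      · exact hQ.measurableSet
      · intro p hp
        exact setIntegral_shift_le hF hF0 hA hA' _ fun x hx => hs x hx p.1 hp.1 p.2 hp.2
    refine h1.trans (le_of_eq ?_)
    rw [setIntegral_const, smul_eq_mul, measureReal_def, Measure.prod_prod, ENNReal.toReal_mul,
      Real.volume_Icc, sub_zero, ENNReal.toReal_ofReal hT]
  · rw [Measure.prod_restrict]
    apply ContinuousOn.integrableOn_compact (hA.prod hQ)
    apply Continuous.continuousOn
    simp only [Function.uncurry_def]
    fun_prop


lemma exists_mo_bound : ∃ C : ℝ, 0 < C ∧ ∀ z : Fin N → ℝ, |mo z| ≤ C := by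
  obtain ⟨C, hC⟩ := (mo_contDiff (N := N) 0).continuous.bounded_above_of_compact_support mo_hcs
  exact ⟨max C 1, by positivity, fun z => (hC z).trans (le_max_left _ _)⟩

lemma diff_le (hN : 0 < N) : ∃ C : ℝ, 0 < C ∧ ∀ (h g : (Fin N → ℝ) → ℝ)
    (f : Fin N → (Fin N → ℝ) → ℝ), ContDiff ℝ 2 h → (∀ i, ContDiff ℝ 1 (f i)) → Continuous g →
    (∀ y, ∑ i, pd i (pd i h) y = ∑ i, pd i (f i) y + g y) → ∀ (y : Fin N → ℝ) (T : ℝ), 0 ≤ T →
    |(∫ z, mo z * h (y + T • z)) - h y| ≤
      C * ∫ t in Set.Icc 0 T, ∫ z in KK N, ((∑ i, |f i (y + t • z)|) + T * |g (y + t • z)|) := by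
  obtain ⟨C1, hC1, hmo⟩ := exists_mo_bound (N := N)
  have hκ := kap_pos hN
  refine ⟨2 * C1 + 1 / kap N, by positivity, ?_⟩
  intro h g f hh hf hg heq y T hT
  have hfc : ∀ i, Continuous (f i) := fun i => (hf i).continuous
  rw [diff_id hN hh y hT, ← integral_const_mul]
  simp_rw [key_id hh hf hg heq]
  have hFc : Continuous fun p : ℝ × (Fin N → ℝ) =>
      ((∑ i, |f i (y + p.1 • p.2)|) + T * |g (y + p.1 • p.2)|) := by
    apply Continuous.add
    · exact continuous_finset_sum _ fun i _ => ((hfc i).comp (by fun_prop)).abs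
    · exact continuous_const.mul ((hg.comp (by fun_prop)).abs)
  have hKK := isCompact_KK (N := N)
  refine (abs_integral_le_integral_abs).trans ?_
  apply setIntegral_mono_on
  · apply ContinuousOn.integrableOn_compact isCompact_Icc
    apply Continuous.continuousOn
    apply Continuous.abs
    simp_rw [integral_mo_mul_eq, integral_po_mul_eq]
    apply Continuous.add
    · apply continuous_parametric_integral_of_continuous _ hKK
      simp only [Function.uncurry_def]
      apply Continuous.mul ((mo_contDiff 0).continuous.comp continuous_snd)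
      refine continuous_finset_sum _ fun i _ => ?_
      exact ((continuous_apply i).comp continuous_snd).mul ((hfc i).comp (by fun_prop))
    · apply Continuous.mul continuous_id
      apply continuous_parametric_integral_of_continuous _ hKK
      simp only [Function.uncurry_def]
      exact Continuous.mul ((po_contDiff 0).continuous.comp continuous_snd) (hg.comp (by fun_prop))
  · apply ContinuousOn.integrableOn_compact isCompact_Icc
    apply Continuous.continuousOn
    apply Continuous.mul continuous_const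
    apply continuous_parametric_integral_of_continuous _ hKK
    simp only [Function.uncurry_def]
    exact hFc
  · exact measurableSet_Icc
  · intro t ht
    have ht0 : 0 ≤ t := ht.1
    rw [integral_mo_mul_eq, integral_po_mul_eq, ← integral_const_mul]
    have c1 : Continuous fun z : Fin N → ℝ => mo z * ∑ i, z i * f i (y + t • z) := by
      apply Continuous.mul (mo_contDiff 0).continuous
      refine continuous_finset_sum _ fun i _ => ?_
      exact (continuous_apply i).mul ((hfc i).comp (by fun_prop))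
    have c2 : Continuous fun z : Fin N → ℝ => t * (po z * g (y + t • z)) :=
      continuous_const.mul (Continuous.mul (po_contDiff 0).continuous (hg.comp (by fun_prop)))
    rw [← integral_const_mul, ← integral_add (c1.continuousOn.integrableOn_compact hKK)
      (c2.continuousOn.integrableOn_compact hKK)]
    refine (abs_integral_le_integral_abs).trans ?_
    have c3 : Continuous fun z : Fin N → ℝ =>
        ((∑ i, |f i (y + t • z)|) + T * |g (y + t • z)|) :=
      hFc.comp (Continuous.prodMk (continuous_const (y := t)) continuous_id)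
    apply setIntegral_mono_on
    · exact (c1.add c2).abs.continuousOn.integrableOn_compact hKK
    · exact (continuous_const.mul c3).continuousOn.integrableOn_compact hKK
    · exact hKK.measurableSet
    · intro z hz
      have h1 : |mo z * ∑ i, z i * f i (y + t • z)| ≤ 2 * C1 * ∑ i, |f i (y + t • z)| := by
        rw [abs_mul]
        have h2 : |∑ i, z i * f i (y + t • z)| ≤ 2 * ∑ i, |f i (y + t • z)| := by
          refine (Finset.abs_sum_le_sum_abs _ _).trans ?_
          rw [Finset.mul_sum]
          apply Finset.sum_le_sum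
          intro i _
          rw [abs_mul]
          exact mul_le_mul_of_nonneg_right (abs_le_of_mem_KK hz i) (abs_nonneg _)
        calc |mo z| * |∑ i, z i * f i (y + t • z)|
            ≤ C1 * (2 * ∑ i, |f i (y + t • z)|) :=
              mul_le_mul (hmo z) h2 (abs_nonneg _) hC1.le
          _ = _ := by ring
      have h3 : |t * (po z * g (y + t • z))| ≤ 1 / kap N * (T * |g (y + t • z)|) := by
        rw [abs_mul, abs_mul, abs_of_nonneg ht0, abs_of_nonneg (po_nonneg hN z)]
        have h4 : po z ≤ 1 / kap N := by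
          unfold po
          exact div_le_div_of_nonneg_right (P0_le_one z) hκ.le
        calc t * (po z * |g (y + t • z)|) ≤ T * ((1 / kap N) * |g (y + t • z)|) := by
              apply mul_le_mul ht.2 (mul_le_mul_of_nonneg_right h4 (abs_nonneg _))
                (mul_nonneg (po_nonneg hN z) (abs_nonneg _)) hT
          _ = _ := by ring
      have h5 : 0 ≤ ∑ i, |f i (y + t • z)| := Finset.sum_nonneg fun _ _ => abs_nonneg _
      have h6 : 0 ≤ T * |g (y + t • z)| := mul_nonneg hT (abs_nonneg _)
      calc |mo z * ∑ i, z i * f i (y + t • z) + t * (po z * g (y + t • z))|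
          ≤ 2 * C1 * ∑ i, |f i (y + t • z)| + 1 / kap N * (T * |g (y + t • z)|) :=
            (abs_add_le _ _).trans (add_le_add h1 h3)
        _ ≤ (2 * C1 + 1 / kap N) * ((∑ i, |f i (y + t • z)|) + T * |g (y + t • z)|) := by
            have h7 : 0 ≤ 1 / kap N := by positivity
            nlinarith [mul_nonneg hC1.le h6, mul_nonneg h7 h5]

lemma exists_taylor_mo : ∃ C : ℝ, 0 < C ∧ ∀ z v : Fin N → ℝ,
    |mo (z - v) - mo z + ∑ i, v i * pd i mo z| ≤ C * ‖v‖ ^ 2 := by
  have h1 : ∀ i, ∃ C : NNReal, LipschitzWith C (pd i (mo (N := N))) := fun i =>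
    ContDiff.lipschitzWith_of_hasCompactSupport (hasCompactSupport_pd mo_hcs)
      (contDiff_pd_one (mo_contDiff 2)) (by norm_num)
  choose C hC using h1
  have h2 := taylor_le (g := mo (N := N)) ((mo_contDiff 1).differentiable (by norm_num))
    (C := ∑ i, (C i : ℝ)) (by
      intro x v i
      have h3 := (hC i).dist_le_mul (x + v) x
      rw [Real.dist_eq, dist_eq_norm, add_sub_cancel_left] at h3
      refine h3.trans ?_
      apply mul_le_mul_of_nonneg_right _ (norm_nonneg _)
      exact Finset.single_le_sum (f := fun i => (C i : ℝ)) (fun i _ => (C i).2) (Finset.mem_univ i))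
  have hS : 0 ≤ ∑ i, (C i : ℝ) := Finset.sum_nonneg fun i _ => (C i).2
  refine ⟨N * (∑ i, (C i : ℝ)) + 1, by positivity, fun z v => ?_⟩
  have h3 := h2 z (-v)
  rw [norm_neg] at h3
  have e : mo (z + -v) - mo z - ∑ i, (-v) i * pd i mo z =
      mo (z - v) - mo z + ∑ i, v i * pd i mo z := by
    rw [← sub_eq_add_neg]
    simp only [Pi.neg_apply, neg_mul, Finset.sum_neg_distrib]
    ring
  rw [e] at h3
  refine h3.trans ?_
  nlinarith [sq_nonneg ‖v‖]

lemma pd_mo_zero {z : Fin N → ℝ} (hz : z ∉ KK N) (i : Fin N) : pd i mo z = 0 := by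
  apply pd_eq_zero_of_notMem_tsupport
  intro h
  apply hz
  apply closure_minimal _ isClosed_KK h
  intro w hw
  by_contra hk
  exact hw (mo_zero hk)

lemma exists_pd_mo_bound : ∃ C : ℝ, 0 < C ∧ ∀ (i : Fin N) (z : Fin N → ℝ), |pd i mo z| ≤ C := by
  have h1 : ∀ i, ∃ C : ℝ, ∀ z, |pd i (mo (N := N)) z| ≤ C := fun i => by
    obtain ⟨C, hC⟩ := (continuous_pd (mo_contDiff (N := N) 1)).bounded_above_of_compact_support
      (hasCompactSupport_pd (i := i) mo_hcs)
    exact ⟨C, hC⟩
  choose C hC using h1
  refine ⟨(∑ i, |C i|) + 1, by positivity, fun i z => ?_⟩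
  have h2 := Finset.single_le_sum (f := fun i => |C i|) (fun i _ => abs_nonneg _)
    (Finset.mem_univ i)
  have h3 := (hC i z).trans (le_abs_self _)
  linarith

/-- the smooth average is affine up to a quadratic error -/
lemma avg_affine : ∃ C : ℝ, 0 < C ∧ ∀ (h : (Fin N → ℝ) → ℝ) (T M : ℝ), 0 < T → 0 ≤ M →
    Continuous h → (∀ z ∈ KK N, |h (T • z)| ≤ M) →
    ∃ (a : ℝ) (b : Fin N → ℝ), |a| ≤ C * M ∧ (∀ i, |b i| ≤ C * M / T) ∧
      ∀ y : Fin N → ℝ, (∀ z ∈ KK N, |h (y + T • z)| ≤ M) →
        |(∫ z, mo z * h (y + T • z)) - a - ∑ i, b i * y i| ≤ C * M * ‖T⁻¹ • y‖ ^ 2 := by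
  obtain ⟨C1, hC1, hmo⟩ := exists_mo_bound (N := N)
  obtain ⟨C2, hC2, hta⟩ := exists_taylor_mo (N := N)
  obtain ⟨C3, hC3, hpd⟩ := exists_pd_mo_bound (N := N)
  set V := (volume (KK N)).toReal with hV
  have hV0 : 0 ≤ V := ENNReal.toReal_nonneg
  have hKK := isCompact_KK (N := N)
  refine ⟨(C1 + C3 + 2 * C2) * V + 1, by positivity, ?_⟩
  intro h T M hT hM hh hK
  have hTc : Continuous fun z : Fin N → ℝ => h (T • z) := by fun_prop
  have bound : ∀ (ρ : (Fin N → ℝ) → ℝ) (K : ℝ), 0 ≤ K → (∀ z, z ∉ KK N → ρ z = 0) →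
      (∀ z, |ρ z| ≤ K) → |∫ z, ρ z * h (T • z)| ≤ K * M * V := by
    intro ρ K hK0 hρ0 hρ
    have e : ∫ z, ρ z * h (T • z) = ∫ z in KK N, ρ z * h (T • z) := by
      rw [setIntegral_eq_integral_of_forall_compl_eq_zero]
      intro z hz; rw [hρ0 z hz, zero_mul]
    rw [e]
    have := norm_setIntegral_le_of_norm_le_const (μ := volume) (s := KK N)
      (f := fun z => ρ z * h (T • z)) (C := K * M) hKK.measure_lt_top (fun z hz => by
        rw [Real.norm_eq_abs, abs_mul]
        exact mul_le_mul (hρ z) (hK z hz) (abs_nonneg _) hK0)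
    exact this
  refine ⟨∫ z, mo z * h (T • z), fun i => - T⁻¹ * ∫ z, pd i mo z * h (T • z), ?_, ?_, ?_⟩
  · refine (bound mo C1 hC1.le (fun z hz => mo_zero hz) hmo).trans ?_
    nlinarith [mul_nonneg (mul_nonneg hC3.le hV0) hM, mul_nonneg (mul_nonneg hC2.le hV0) hM]
  · intro i
    rw [abs_mul, abs_neg, abs_of_pos (inv_pos.mpr hT), div_eq_inv_mul]
    apply mul_le_mul_of_nonneg_left _ (inv_pos.mpr hT).le
    refine (bound (pd i mo) C3 hC3.le (fun z hz => pd_mo_zero hz i) (hpd i)).trans ?_
    nlinarith [mul_nonneg (mul_nonneg hC1.le hV0) hM, mul_nonneg (mul_nonneg hC2.le hV0) hM]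
  · intro y hy
    set v : Fin N → ℝ := T⁻¹ • y with hv
    have hTv : T • v = y := by rw [hv, smul_smul, mul_inv_cancel₀ hT.ne', one_smul]
    have e1 : ∫ z, mo z * h (y + T • z) = ∫ z, mo (z - v) * h (T • z) := by
      rw [← integral_sub_right_eq_self (fun z => mo z * h (y + T • z)) v]
      apply integral_congr_ae
      refine Eventually.of_forall fun z => ?_
      simp only
      rw [smul_sub, hTv, add_sub_cancel]
    have i1 : Integrable fun z => mo (z - v) * h (T • z) := by
      have := (integrable_mo_mul (N := N) (G := fun z => h (T • (z + v))) (by fun_prop)).comp_sub_right v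
      simpa using this
    have i2 : Integrable fun z => mo z * h (T • z) := integrable_mo_mul hTc
    have i3 : ∀ i, Integrable fun z => v i * (pd i mo z * h (T • z)) := fun i =>
      (((continuous_pd (mo_contDiff 1)).mul hTc).integrable_of_hasCompactSupport
        (hasCompactSupport_pd mo_hcs).mul_right).const_mul _
    have e2 : (∫ z, mo z * h (y + T • z)) - (∫ z, mo z * h (T • z)) -
        ∑ i, (- T⁻¹ * ∫ z, pd i mo z * h (T • z)) * y i =
        ∫ z, (mo (z - v) - mo z + ∑ i, v i * pd i mo z) * h (T • z) := by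
      have e3 : ∫ z, (mo (z - v) - mo z + ∑ i, v i * pd i mo z) * h (T • z) =
          ∫ z, (mo (z - v) * h (T • z) - mo z * h (T • z) +
            ∑ i, v i * (pd i mo z * h (T • z))) := by
        apply integral_congr_ae
        refine Eventually.of_forall fun z => ?_
        simp only
        rw [add_mul, sub_mul, Finset.sum_mul]
        congr 1
        exact Finset.sum_congr rfl fun i _ => by ring
      have i12 : Integrable fun z => mo (z - v) * h (T • z) - mo z * h (T • z) := i1.sub i2
      have i13 : Integrable fun z => ∑ i, v i * (pd i mo z * h (T • z)) :=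
        integrable_finset_sum _ fun i _ => i3 i
      rw [e3, integral_add i12 i13,
        integral_sub i1 i2, integral_finset_sum _ fun i _ => i3 i, e1, sub_eq_add_neg]
      congr 1
      rw [← Finset.sum_neg_distrib]
      refine Finset.sum_congr rfl fun i _ => ?_
      rw [integral_const_mul, hv]
      simp only [Pi.smul_apply, smul_eq_mul]
      ring
    rw [e2]
    refine (abs_integral_le_integral_abs).trans ?_
    have i4 : Integrable (fun z : Fin N → ℝ => ind (KK N) z) := by
      have := integrable_mul_ind (f := fun _ : Fin N → ℝ => (1:ℝ)) continuous_const hKK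
      simpa using this
    have i5 : Integrable (fun z : Fin N → ℝ => ind (KK N) (z - v)) := i4.comp_sub_right v
    have hi : ∫ z : Fin N → ℝ, ind (KK N) z = V := by
      have := integral_mul_ind (F := fun _ : Fin N → ℝ => (1:ℝ)) hKK.measurableSet
      simp only [one_mul] at this
      rw [this, setIntegral_const, smul_eq_mul, mul_one]; rfl
    have hi2 : ∫ z : Fin N → ℝ, ind (KK N) (z - v) = V := by
      rw [integral_sub_right_eq_self (fun z => ind (KK N) z) v, hi]
    calc ∫ z, |(mo (z - v) - mo z + ∑ i, v i * pd i mo z) * h (T • z)|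
        ≤ ∫ z, C2 * ‖v‖ ^ 2 * M * (ind (KK N) z + ind (KK N) (z - v)) := by
          apply integral_mono_of_nonneg
          · exact Eventually.of_forall fun z => abs_nonneg _
          · exact (i4.add i5).const_mul _
          · refine Eventually.of_forall fun z => ?_
            show |(mo (z - v) - mo z + ∑ i, v i * pd i mo z) * h (T • z)| ≤
              C2 * ‖v‖ ^ 2 * M * (ind (KK N) z + ind (KK N) (z - v))
            have n1 := ind_nonneg (KK N) z
            have n2 := ind_nonneg (KK N) (z - v)
            have hc : 0 ≤ C2 * ‖v‖ ^ 2 * M := by positivity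
            rw [abs_mul]
            by_cases h1 : z ∈ KK N
            · have h3 := mul_le_mul (hta z v) (hK z h1) (abs_nonneg _) (by positivity)
              rw [ind_mem h1]
              nlinarith
            · by_cases h2 : z - v ∈ KK N
              · have h4 := hy _ h2
                rw [smul_sub, hTv, add_sub_cancel] at h4
                have h3 := mul_le_mul (hta z v) h4 (abs_nonneg _) (by positivity)
                rw [ind_mem h2]
                nlinarith
              · rw [mo_zero h1, mo_zero h2]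
                have : ∑ i, v i * pd i mo z = 0 :=
                  Finset.sum_eq_zero fun i _ => by rw [pd_mo_zero h1, mul_zero]
                rw [this]
                simp only [sub_self, add_zero, abs_zero, zero_mul]
                positivity
      _ = C2 * ‖v‖ ^ 2 * M * (V + V) := by
          rw [integral_const_mul, integral_add i4 i5, hi, hi2]
      _ ≤ ((C1 + C3 + 2 * C2) * V + 1) * M * ‖v‖ ^ 2 := by
          have : 0 ≤ M * ‖v‖ ^ 2 := by positivity
          nlinarith [mul_nonneg (mul_nonneg hC1.le hV0) this, mul_nonneg (mul_nonneg hC3.le hV0) this]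


lemma esq_add_smul_le {R r t : ℝ} (hr0 : 0 ≤ r) (hr : r ≤ R / 4) (ht : t ∈ Set.Icc 0 (R / 2))
    {y z : Fin N → ℝ} (hy : esq y ≤ r ^ 2) (hz : z ∈ KK N) : esq (y + t • z) ≤ R ^ 2 := by
  have h1 : esq (y + t • z) ≤ 3 * esq y + 3 / 2 * (t ^ 2 * esq z) := by
    unfold esq
    rw [Finset.mul_sum, Finset.mul_sum, Finset.mul_sum, ← Finset.sum_add_distrib]
    apply Finset.sum_le_sum
    intro i _
    simp only [Pi.add_apply, Pi.smul_apply, smul_eq_mul]
    nlinarith [sq_nonneg (2 * y i - t * z i)]
  have h2 : esq z ≤ 2 := hz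
  have h3 : t ^ 2 ≤ (R / 2) ^ 2 := by nlinarith [ht.1, ht.2]
  have h4 : t ^ 2 * esq z ≤ (R / 2) ^ 2 * 2 :=
    mul_le_mul h3 h2 (esq_nonneg z) (sq_nonneg _)
  have h5 : r ^ 2 ≤ (R / 4) ^ 2 := by nlinarith
  nlinarith

lemma isCompact_eball (r : ℝ) : IsCompact {y : Fin N → ℝ | esq y ≤ r ^ 2} := by
  apply (isCompact_box (n := N) |r|).of_isClosed_subset (isClosed_le continuous_esq continuous_const)
  intro z hz
  rw [mem_box]
  intro i
  have h1 := sq_le_rho (S := Finset.univ) (Finset.mem_univ i) z
  have h2 : rho Finset.univ z ≤ r ^ 2 := hz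
  exact sq_le_sq.mp (h1.trans h2)

lemma volume_eball_le {r : ℝ} (hr : 0 ≤ r) :
    (volume {y : Fin N → ℝ | esq y ≤ r ^ 2}).toReal ≤ (2 * r) ^ N := by
  rw [← volume_box hr]
  apply ENNReal.toReal_mono (volume_box_ne_top r)
  apply measure_mono
  intro z hz
  rw [mem_box]
  intro i
  have h1 := sq_le_rho (S := Finset.univ) (Finset.mem_univ i) z
  have h2 : rho Finset.univ z ≤ r ^ 2 := hz
  have h3 := sq_le_sq.mp (h1.trans h2)
  rwa [abs_of_nonneg hr] at h3

/-- **Affine approximation** of an almost harmonic function (`Δh = div f + g`), in `L¹`. -/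
theorem affine_approx (hN : 0 < N) : ∃ C : ℝ, 0 < C ∧ ∀ (h g : (Fin N → ℝ) → ℝ)
    (f : Fin N → (Fin N → ℝ) → ℝ) (R M : ℝ), 0 < R → ContDiff ℝ 2 h → (∀ i, ContDiff ℝ 1 (f i)) →
    Continuous g →
    (∀ y, esq y ≤ R ^ 2 → ∑ i, pd i (pd i h) y = ∑ i, pd i (f i) y + g y) →
    (∀ y, esq y ≤ R ^ 2 → |h y| ≤ M) →
    ∃ (a : ℝ) (b : Fin N → ℝ), |a| ≤ C * M ∧ (∀ i, |b i| ≤ C * M / R) ∧
      ∀ r, 0 ≤ r → r ≤ R / 4 →
        ∫ y in {y | esq y ≤ r ^ 2}, |h y - a - ∑ i, b i * y i| ≤
          C * (R * (∫ y in {y | esq y ≤ R ^ 2}, ∑ i, |f i y|) +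
            R ^ 2 * ∫ y in {y | esq y ≤ R ^ 2}, |g y|) + C * M * (r / R) ^ 2 * r ^ N := by
  obtain ⟨C1, hC1, hd⟩ := diff_le hN
  obtain ⟨C2, hC2, ha⟩ := avg_affine (N := N)
  set V := (volume (KK N)).toReal with hV
  have hV0 : 0 ≤ V := ENNReal.toReal_nonneg
  refine ⟨C1 * V + 2 * C2 + 4 * C2 * 2 ^ N, by positivity, ?_⟩
  intro h g f R M hR hh hf hg heq hM
  have hM0 : 0 ≤ M := (abs_nonneg _).trans (hM 0 (by simp only [esq, Pi.zero_apply]; simp; positivity))
  have hT : 0 < R / 2 := by positivity
  -- replace g by the continuous function for which the identity is global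
  set g' : (Fin N → ℝ) → ℝ := fun y => ∑ i, pd i (pd i h) y - ∑ i, pd i (f i) y with hg'
  have hg'c : Continuous g' := by
    apply Continuous.sub
    · exact continuous_finset_sum _ fun i _ => continuous_pd (contDiff_pd_one hh)
    · exact continuous_finset_sum _ fun i _ => continuous_pd (hf i)
  have heq' : ∀ y, ∑ i, pd i (pd i h) y = ∑ i, pd i (f i) y + g' y := fun y => by
    simp only [hg']; ring
  have hBc := isCompact_eball (N := N) R
  have hint : ∫ y in {y : Fin N → ℝ | esq y ≤ R ^ 2}, |g' y| =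
      ∫ y in {y : Fin N → ℝ | esq y ≤ R ^ 2}, |g y| := by
    apply setIntegral_congr_fun hBc.measurableSet
    intro y hy
    have := heq y hy
    simp only [hg']
    rw [this]; ring_nf
  have hfc : ∀ i, Continuous (f i) := fun i => (hf i).continuous
  have h0 : esq (0 : Fin N → ℝ) ≤ (0:ℝ) ^ 2 := by simp [esq]
  obtain ⟨a, b, h1, h2, h3⟩ := ha h (R / 2) M hT hM0 hh.continuous (fun z hz => by
    have := esq_add_smul_le (R := R) le_rfl (by positivity) (t := R / 2)
      ⟨hT.le, le_rfl⟩ h0 hz
    rw [zero_add] at this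
    exact hM _ this)
  refine ⟨a, b, ?_, ?_, ?_⟩
  · refine h1.trans ?_
    apply mul_le_mul_of_nonneg_right _ hM0
    have : 0 ≤ C1 * V + 4 * C2 * 2 ^ N := by positivity
    linarith
  · intro i
    refine (h2 i).trans ?_
    rw [div_le_div_iff₀ hT hR]
    have : 0 ≤ (C1 * V + 4 * C2 * 2 ^ N) * M * R := by positivity
    nlinarith
  · intro r hr0 hr
    have hAc := isCompact_eball (N := N) r
    set F : (Fin N → ℝ) → ℝ := fun x => (∑ i, |f i x|) + R / 2 * |g' x| with hF
    have hFc : Continuous F := by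
      apply Continuous.add
      · exact continuous_finset_sum _ fun i _ => (hfc i).abs
      · exact continuous_const.mul hg'c.abs
    have hF0 : ∀ x, 0 ≤ F x := fun x =>
      add_nonneg (Finset.sum_nonneg fun _ _ => abs_nonneg _) (mul_nonneg hT.le (abs_nonneg _))
    have hsub : ∀ y ∈ {y : Fin N → ℝ | esq y ≤ r ^ 2}, ∀ t ∈ Set.Icc 0 (R / 2), ∀ z ∈ KK N,
        y + t • z ∈ {y : Fin N → ℝ | esq y ≤ R ^ 2} := fun y hy t ht z hz =>
      esq_add_smul_le hr0 hr ht hy hz
    have key := par_le hFc hF0 hT.le hAc hBc hsub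
    have hRr : 0 ≤ r / R := by positivity
    have pt : ∀ y ∈ {y : Fin N → ℝ | esq y ≤ r ^ 2}, |h y - a - ∑ i, b i * y i| ≤
        C1 * (∫ t in Set.Icc 0 (R / 2), ∫ z in KK N, F (y + t • z)) +
          4 * C2 * M * (r / R) ^ 2 := by
      intro y hy
      have k1 := hd h g' f hh hf hg'c heq' y (R / 2) hT.le
      have k2 := h3 y fun z hz => hM _ (hsub y hy (R / 2) ⟨hT.le, le_rfl⟩ z hz)
      have k3 : ‖(R / 2)⁻¹ • y‖ ^ 2 ≤ 4 * (r / R) ^ 2 := by
        have k4 : ‖y‖ ≤ r := by
          rw [pi_norm_le_iff_of_nonneg hr0]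
          intro i
          have m1 := sq_le_rho (S := Finset.univ) (Finset.mem_univ i) y
          have m2 : rho Finset.univ y ≤ r ^ 2 := hy
          have m3 := sq_le_sq.mp (m1.trans m2)
          rwa [abs_of_nonneg hr0] at m3
        rw [norm_smul, Real.norm_of_nonneg (inv_pos.mpr hT).le]
        have k5 : (R / 2)⁻¹ * ‖y‖ ≤ 2 * (r / R) := by
          rw [inv_mul_eq_div, div_le_iff₀ hT]
          calc ‖y‖ ≤ r := k4
            _ = 2 * (r / R) * (R / 2) := by field_simp
        have k6 : 0 ≤ (R / 2)⁻¹ * ‖y‖ := by positivity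
        nlinarith
      have k7 : C2 * M * ‖(R / 2)⁻¹ • y‖ ^ 2 ≤ 4 * C2 * M * (r / R) ^ 2 := by
        have := mul_le_mul_of_nonneg_left k3 (mul_nonneg hC2.le hM0)
        linarith
      have k8 : |h y - a - ∑ i, b i * y i| ≤
          |(∫ z, mo z * h (y + (R / 2) • z)) - h y| +
          |(∫ z, mo z * h (y + (R / 2) • z)) - a - ∑ i, b i * y i| := by
        have : h y - a - ∑ i, b i * y i = -((∫ z, mo z * h (y + (R / 2) • z)) - h y) +
          ((∫ z, mo z * h (y + (R / 2) • z)) - a - ∑ i, b i * y i) := by ring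
        rw [this]
        refine (abs_add_le _ _).trans ?_
        rw [abs_neg]
      linarith
    have hX : Continuous fun y : Fin N → ℝ => ∫ t in Set.Icc 0 (R / 2), ∫ z in KK N, F (y + t • z) := by
      have e : ∀ y : Fin N → ℝ, ∫ t in Set.Icc 0 (R / 2), ∫ z in KK N, F (y + t • z) =
          ∫ p in Set.Icc (0:ℝ) (R / 2) ×ˢ KK N, F (y + p.1 • p.2) ∂(volume.prod volume) := by
        intro y
        rw [setIntegral_prod]
        apply ContinuousOn.integrableOn_compact (isCompact_Icc.prod isCompact_KK)
        apply Continuous.continuousOn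
        fun_prop
      simp_rw [e]
      apply continuous_parametric_integral_of_continuous _ (isCompact_Icc.prod isCompact_KK)
      simp only [Function.uncurry_def]
      fun_prop
    have hLc : Continuous fun y : Fin N → ℝ => |h y - a - ∑ i, b i * y i| := by
      have := hh.continuous
      fun_prop
    calc ∫ y in {y : Fin N → ℝ | esq y ≤ r ^ 2}, |h y - a - ∑ i, b i * y i|
        ≤ ∫ y in {y : Fin N → ℝ | esq y ≤ r ^ 2},
            (C1 * (∫ t in Set.Icc 0 (R / 2), ∫ z in KK N, F (y + t • z)) +
              4 * C2 * M * (r / R) ^ 2) := by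
          apply setIntegral_mono_on
          · exact hLc.continuousOn.integrableOn_compact hAc
          · exact (((continuous_const.mul hX).add continuous_const).continuousOn.integrableOn_compact
              hAc)
          · exact hAc.measurableSet
          · exact pt
      _ = C1 * (∫ y in {y : Fin N → ℝ | esq y ≤ r ^ 2},
            ∫ t in Set.Icc 0 (R / 2), ∫ z in KK N, F (y + t • z)) +
            (volume {y : Fin N → ℝ | esq y ≤ r ^ 2}).toReal * (4 * C2 * M * (r / R) ^ 2) := by
          have w1 : IntegrableOn (fun y : Fin N → ℝ => C1 * ∫ t in Set.Icc 0 (R / 2),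
              ∫ z in KK N, F (y + t • z)) {y : Fin N → ℝ | esq y ≤ r ^ 2} :=
            (continuous_const.mul hX).continuousOn.integrableOn_compact hAc
          have w2 : IntegrableOn (fun y : Fin N → ℝ => 4 * C2 * M * (r / R) ^ 2)
              {y : Fin N → ℝ | esq y ≤ r ^ 2} :=
            continuous_const.continuousOn.integrableOn_compact hAc
          rw [integral_add w1 w2, integral_const_mul,
            setIntegral_const, smul_eq_mul]
          rfl
      _ ≤ C1 * (R / 2 * V * ∫ x in {y : Fin N → ℝ | esq y ≤ R ^ 2}, F x) +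
            (2 * r) ^ N * (4 * C2 * M * (r / R) ^ 2) := by
          apply add_le_add
          · exact mul_le_mul_of_nonneg_left key hC1.le
          · exact mul_le_mul_of_nonneg_right (volume_eball_le hr0) (by positivity)
      _ ≤ _ := by
          have e1 : ∫ x in {y : Fin N → ℝ | esq y ≤ R ^ 2}, F x =
              (∫ y in {y : Fin N → ℝ | esq y ≤ R ^ 2}, ∑ i, |f i y|) +
                R / 2 * ∫ y in {y : Fin N → ℝ | esq y ≤ R ^ 2}, |g y| := by
            have w1 : IntegrableOn (fun y : Fin N → ℝ => ∑ i, |f i y|)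
                {y : Fin N → ℝ | esq y ≤ R ^ 2} :=
              (continuous_finset_sum _ fun i _ =>
                (hfc i).abs).continuousOn.integrableOn_compact hBc
            have w2 : IntegrableOn (fun y : Fin N → ℝ => R / 2 * |g' y|)
                {y : Fin N → ℝ | esq y ≤ R ^ 2} :=
              (continuous_const.mul hg'c.abs).continuousOn.integrableOn_compact hBc
            rw [← hint, ← integral_const_mul, ← integral_add w1 w2]
          rw [e1]
          set I1 := ∫ y in {y : Fin N → ℝ | esq y ≤ R ^ 2}, ∑ i, |f i y|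
          set I2 := ∫ y in {y : Fin N → ℝ | esq y ≤ R ^ 2}, |g y|
          have p1 : 0 ≤ I1 := integral_nonneg fun y => Finset.sum_nonneg fun _ _ => abs_nonneg _
          have p2 : 0 ≤ I2 := integral_nonneg fun y => abs_nonneg _
          have q1 : 0 ≤ R * I1 := by positivity
          have q2 : 0 ≤ R ^ 2 * I2 := by positivity
          have q3 : 0 ≤ M * (r / R) ^ 2 * r ^ N := by positivity
          rw [mul_pow]
          have e2 : C1 * (R / 2 * V * (I1 + R / 2 * I2)) + 2 ^ N * r ^ N * (4 * C2 * M * (r / R) ^ 2)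
              = (C1 * V) * (1 / 2) * (R * I1) + (C1 * V) * (1 / 4) * (R ^ 2 * I2) +
                (4 * C2 * 2 ^ N) * (M * (r / R) ^ 2 * r ^ N) := by ring
          have e3 : (C1 * V + 2 * C2 + 4 * C2 * 2 ^ N) * (R * I1 + R ^ 2 * I2) +
              (C1 * V + 2 * C2 + 4 * C2 * 2 ^ N) * M * (r / R) ^ 2 * r ^ N =
              (C1 * V) * (R * I1) + (C1 * V) * (R ^ 2 * I2) +
              (4 * C2 * 2 ^ N) * (M * (r / R) ^ 2 * r ^ N) +
              ((2 * C2 + 4 * C2 * 2 ^ N) * (R * I1 + R ^ 2 * I2) +
                (C1 * V + 2 * C2) * (M * (r / R) ^ 2 * r ^ N)) := by ring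
          rw [e2, e3]
          have w0 : 0 ≤ C1 * V := by positivity
          have w1 : 0 ≤ (2 * C2 + 4 * C2 * 2 ^ N) * (R * I1 + R ^ 2 * I2) +
                (C1 * V + 2 * C2) * (M * (r / R) ^ 2 * r ^ N) := by positivity
          nlinarith [mul_nonneg w0 q1, mul_nonneg w0 q2]

end Vale.Agent.P134.H3
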