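import Mathlib

set_option linter.all false

open MeasureTheory Filter Topology intervalIntegral

namespace Vale.Agent.P134.H3

/-- `m(x) = √(2W(x)) = (1 - x²)/√2`. -/
noncomputable def mm (x : ℝ) : ℝ := (1 - x ^ 2) / √2

/-- `Ψ' = m`, `Ψ(-1) = 0`. -/
noncomputable def Ps (x : ℝ) : ℝ := (x - x ^ 3 / 3 + 2 / 3) / √2

/-- `c₀ = Ψ(1)`. -/
noncomputable def c0 : ℝ := (4 / 3) / √2

lemma s2pos : (0 : ℝ) < √2 := by positivity

lemma s2sq : √2 * √2 = (2 : ℝ) := Real.mul_self_sqrt (by norm_num)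

lemma hasDerivAt_Ps (x : ℝ) : HasDerivAt Ps (mm x) x := by
  have h : HasDerivAt (fun x : ℝ => (x - x ^ 3 / 3 + 2 / 3) / √2)
      ((1 - (3 * x ^ 2) / 3) / √2) x := by
    have h3 : HasDerivAt (fun x : ℝ => x ^ 3) (3 * x ^ 2) x := by
      simpa using hasDerivAt_pow 3 x
    exact (((hasDerivAt_id x).sub (h3.div_const 3)).add_const (2/3)).div_const (√2)
  have e : (1 - (3 * x ^ 2) / 3) / √2 = mm x := by unfold mm; congr 1; ring
  rw [e] at h
  exact h

lemma c0_pos : 0 < c0 := by unfold c0; positivity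

lemma c0_le_one : c0 ≤ 1 := by
  unfold c0
  rw [div_le_one s2pos]
  rw [show (4 : ℝ) / 3 = √((4/3)^2) by rw [Real.sqrt_sq]; norm_num]
  exact Real.sqrt_le_sqrt (by norm_num)

lemma Ps_neg (x : ℝ) : Ps (-x) = c0 - Ps x := by unfold Ps c0; ring

lemma Ps_nonneg {x : ℝ} (h : |x| ≤ 1) : 0 ≤ Ps x := by
  rw [abs_le] at h
  have : x - x ^ 3 / 3 + 2 / 3 = (1 + x) ^ 2 * (2 - x) / 3 := by ring
  unfold Ps
  rw [this]
  have : 0 ≤ (1 + x) ^ 2 * (2 - x) := mul_nonneg (sq_nonneg _) (by linarith)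
  positivity

lemma Ps_le {x : ℝ} (h : |x| ≤ 1) : Ps x ≤ c0 := by
  have := Ps_nonneg (x := -x) (by rwa [abs_neg])
  rw [Ps_neg] at this
  linarith

lemma mm_neg (x : ℝ) : mm (-x) = mm x := by unfold mm; ring

lemma mm_nonneg {x : ℝ} (h : |x| ≤ 1) : 0 ≤ mm x := by
  have : x ^ 2 ≤ 1 := by rw [← sq_abs]; nlinarith [abs_nonneg x]
  unfold mm
  have : 0 ≤ 1 - x ^ 2 := by linarith
  positivity

/-- on `{Ψ ≤ 3c₀/4}` one has `Ψ ≤ 5m²` -/
lemma Ps_le_mm {x : ℝ} (h : |x| ≤ 1) (hP : Ps x ≤ 3 / 4 * c0) : Ps x ≤ 5 * mm x ^ 2 := by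
  rw [abs_le] at h
  have e1 : Ps x = (1 + x) ^ 2 * (2 - x) / 3 / √2 := by unfold Ps; congr 1; ring
  have e2 : mm x ^ 2 = (1 + x) ^ 2 * (1 - x) ^ 2 / 2 := by
    unfold mm
    rw [div_pow, Real.sq_sqrt (by norm_num : (0:ℝ) ≤ 2)]; ring
  have h3 : 1 ≤ (1 - x) ^ 2 * (2 + x) := by
    have h4 : (1 / 4) * c0 ≤ Ps (-x) := by rw [Ps_neg]; linarith
    have e4 : Ps (-x) = (1 - x) ^ 2 * (2 + x) / 3 / √2 := by unfold Ps; congr 1; ring
    rw [e4] at h4
    unfold c0 at h4
    have : (1 / 4) * ((4 / 3) / √2) = (1 / 3) / √2 := by ring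
    rw [this, div_le_div_iff_of_pos_right s2pos] at h4
    linarith
  have h5 : 1 / 3 ≤ (1 - x) ^ 2 := by nlinarith [sq_nonneg (1 - x)]
  rw [e1, e2]
  have h6 : (1 + x) ^ 2 * (2 - x) / 3 / √2 ≤ (1 + x) ^ 2 * (2 - x) / 3 / (5/4) := by
    apply div_le_div_of_nonneg_left _ (by norm_num) _
    · have : 0 ≤ (1 + x) ^ 2 * (2 - x) := mul_nonneg (sq_nonneg _) (by linarith)
      positivity
    · rw [show (5 : ℝ) / 4 = √((5/4)^2) by rw [Real.sqrt_sq]; norm_num]
      exact Real.sqrt_le_sqrt (by norm_num)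
  have h7 : (2 - x) / 3 / (5/4) ≤ 5 * (1 - x) ^ 2 / 2 := by nlinarith
  calc (1 + x) ^ 2 * (2 - x) / 3 / √2 ≤ (1 + x) ^ 2 * ((2 - x) / 3 / (5/4)) := by
        refine h6.trans (le_of_eq ?_); ring
    _ ≤ (1 + x) ^ 2 * (5 * (1 - x) ^ 2 / 2) := by
        apply mul_le_mul_of_nonneg_left h7 (sq_nonneg _)
    _ = _ := by ring

section line

variable {v v' : ℝ → ℝ} {a b t : ℝ}

lemma cont_Ps : Continuous Ps := by unfold Ps; fun_prop
lemma cont_mm : Continuous mm := by unfold mm; fun_prop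

lemma Ps_sub (hv : ∀ s, HasDerivAt v (v' s) s) (hc : Continuous v') (s₁ s₂ : ℝ) :
    Ps (v s₂) - Ps (v s₁) = ∫ s in s₁..s₂, mm (v s) * v' s := by
  have hvc : Continuous v := continuous_iff_continuousAt.2 fun s => (hv s).continuousAt
  rw [integral_eq_sub_of_hasDerivAt (f := fun s => Ps (v s))]
  · intro s _
    exact (hasDerivAt_Ps (v s)).comp s (hv s)
  · exact ((cont_mm.comp hvc).mul hc).intervalIntegrable _ _

lemma mono_aux (hv : ∀ s, HasDerivAt v (v' s) s) (hc : Continuous v') {s₁ s₂ : ℝ}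
    (h1 : a ≤ s₁) (h12 : s₁ ≤ s₂) (h2 : s₂ ≤ b) :
    Ps (v s₁) ≤ Ps (v s₂) + (∫ s in a..b, (v' s - mm (v s)) ^ 2) / 4 := by
  have hvc : Continuous v := continuous_iff_continuousAt.2 fun s => (hv s).continuousAt
  have hE : Continuous fun s => (v' s - mm (v s)) ^ 2 := by
    have := cont_mm.comp hvc
    exact (hc.sub this).pow 2
  have hM : Continuous fun s => mm (v s) * v' s := (cont_mm.comp hvc).mul hc
  have e := Ps_sub hv hc s₁ s₂
  have h3 : -(∫ s in s₁..s₂, (v' s - mm (v s)) ^ 2) / 4 ≤ ∫ s in s₁..s₂, mm (v s) * v' s := by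
    rw [neg_div, ← intervalIntegral.integral_div, ← intervalIntegral.integral_neg]
    apply intervalIntegral.integral_mono_on h12
    · exact ((hE.div_const 4).neg).intervalIntegrable _ _
    · exact hM.intervalIntegrable _ _
    · intro s _
      nlinarith [sq_nonneg ((v' s - mm (v s)) / 2 + mm (v s))]
  have h4 : ∫ s in s₁..s₂, (v' s - mm (v s)) ^ 2 ≤ ∫ s in a..b, (v' s - mm (v s)) ^ 2 := by
    apply intervalIntegral.integral_mono_interval h1 h12 h2
    · exact Eventually.of_forall fun s => sq_nonneg _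
    · exact hE.intervalIntegrable _ _
  linarith

lemma int_mm (hv : ∀ s, HasDerivAt v (v' s) s) (hc : Continuous v') (h1 : ∀ s, |v s| ≤ 1)
    (hab : a ≤ b) :
    ∫ s in a..b, mm (v s) ^ 2 ≤ 2 * c0 + ∫ s in a..b, (v' s - mm (v s)) ^ 2 := by
  have hvc : Continuous v := continuous_iff_continuousAt.2 fun s => (hv s).continuousAt
  have hE : Continuous fun s => (v' s - mm (v s)) ^ 2 := by
    have := cont_mm.comp hvc
    exact (hc.sub this).pow 2
  have hM : Continuous fun s => mm (v s) * v' s := (cont_mm.comp hvc).mul hc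
  have hm2 : Continuous fun s => mm (v s) ^ 2 := (cont_mm.comp hvc).pow 2
  have e := Ps_sub hv hc a b
  have h3 : ∫ s in a..b, mm (v s) ^ 2 ≤
      ∫ s in a..b, (2 * (mm (v s) * v' s) + (v' s - mm (v s)) ^ 2) := by
    apply intervalIntegral.integral_mono_on hab
    · exact hm2.intervalIntegrable _ _
    · exact ((hM.const_mul 2).add hE).intervalIntegrable _ _
    · intro s _
      nlinarith [sq_nonneg (v' s)]
  rw [intervalIntegral.integral_add ((hM.const_mul 2).intervalIntegrable _ _)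
    (hE.intervalIntegrable _ _), intervalIntegral.integral_const_mul] at h3
  have h4 := Ps_nonneg (h1 a)
  have h5 := Ps_le (h1 b)
  linarith

/-- The one-dimensional lemma on `[a, b]`. -/
theorem one_d (hv : ∀ s, HasDerivAt v (v' s) s) (hc : Continuous v') (h1 : ∀ s, |v s| ≤ 1)
    (hat : a ≤ t) (htb : t ≤ b) :
    min (∫ s in a..t, Ps (v s)) (∫ s in t..b, (c0 - Ps (v s))) ≤
      15 + (b - a) * ∫ s in a..b, (v' s - mm (v s)) ^ 2 := by
  have hvc : Continuous v := continuous_iff_continuousAt.2 fun s => (hv s).continuousAt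
  have hE : Continuous fun s => (v' s - mm (v s)) ^ 2 := by
    have := cont_mm.comp hvc
    exact (hc.sub this).pow 2
  have hm2 : Continuous fun s => mm (v s) ^ 2 := (cont_mm.comp hvc).pow 2
  have hPc : Continuous fun s => Ps (v s) := cont_Ps.comp hvc
  set E := ∫ s in a..b, (v' s - mm (v s)) ^ 2 with hEdef
  have hE0 : 0 ≤ E := intervalIntegral.integral_nonneg (hat.trans htb) fun s _ => sq_nonneg _
  have hab : a ≤ b := hat.trans htb
  by_cases hbig : c0 ≤ E
  · have h2 : ∫ s in a..t, Ps (v s) ≤ (b - a) * E := by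
      calc ∫ s in a..t, Ps (v s) ≤ ∫ s in a..t, c0 := by
            apply intervalIntegral.integral_mono_on hat (hPc.intervalIntegrable _ _)
              (continuous_const.intervalIntegrable _ _)
            intro s _; exact Ps_le (h1 s)
        _ = (t - a) * c0 := by simp
        _ ≤ (b - a) * E := by
            apply mul_le_mul (by linarith) hbig c0_pos.le (by linarith)
    exact (min_le_left _ _).trans (by linarith)
  · push Not at hbig
    have hmm := int_mm hv hc h1 hab
    have hc1 := c0_le_one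
    have hmul : 0 ≤ (b - a) * E := mul_nonneg (by linarith) hE0
    rcases le_total (Ps (v t)) (c0 / 2) with hl | hl
    · refine (min_le_left _ _).trans ?_
      have h2 : ∫ s in a..t, Ps (v s) ≤ ∫ s in a..t, 5 * mm (v s) ^ 2 := by
        apply intervalIntegral.integral_mono_on hat (hPc.intervalIntegrable _ _)
          ((hm2.const_mul 5).intervalIntegrable _ _)
        intro s hs
        apply Ps_le_mm (h1 s)
        have := mono_aux (a := a) (b := b) hv hc hs.1 hs.2 htb
        linarith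
      have h3 : ∫ s in a..t, 5 * mm (v s) ^ 2 ≤ ∫ s in a..b, 5 * mm (v s) ^ 2 := by
        apply intervalIntegral.integral_mono_interval le_rfl hat htb
        · exact Eventually.of_forall fun s => by positivity
        · exact (hm2.const_mul 5).intervalIntegrable _ _
      simp only [intervalIntegral.integral_const_mul] at h2 h3
      linarith
    · refine (min_le_right _ _).trans ?_
      have h2 : ∫ s in t..b, (c0 - Ps (v s)) ≤ ∫ s in t..b, 5 * mm (v s) ^ 2 := by
        apply intervalIntegral.integral_mono_on htb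
          ((continuous_const.sub hPc).intervalIntegrable _ _)
          ((hm2.const_mul 5).intervalIntegrable _ _)
        intro s hs
        show c0 - Ps (v s) ≤ 5 * mm (v s) ^ 2
        rw [← Ps_neg, ← mm_neg]
        apply Ps_le_mm (by rw [abs_neg]; exact h1 s)
        have := mono_aux (a := a) (b := b) hv hc hat hs.1 hs.2
        rw [Ps_neg]
        linarith
      have h3 : ∫ s in t..b, 5 * mm (v s) ^ 2 ≤ ∫ s in a..b, 5 * mm (v s) ^ 2 := by
        apply intervalIntegral.integral_mono_interval hat htb le_rfl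
        · exact Eventually.of_forall fun s => by positivity
        · exact (hm2.const_mul 5).intervalIntegrable _ _
      simp only [intervalIntegral.integral_const_mul] at h2 h3
      linarith

end line

end Vale.Agent.P134.H3
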