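import Vale.Agent.P134.H160.Div
import Vale.Agent.P134.H3.Affine
import Vale.Agent.P134.H3.OneD

set_option linter.all false

open MeasureTheory Filter Topology

namespace Vale.Agent.P134.H3

open Vale.Agent.P134 Vale.Agent.P134.H160
open Vale.Agent.P134.H891 (Psi)

variable {m : ℕ} {p : Fin (m + 1)}

/-- coordinates other than `p` -/
def oth (p : Fin (m + 1)) (x : Fin (m + 1) → ℝ) : Fin m → ℝ := fun i => x (p.succAbove i)

@[simp] lemma oth_ins (s : ℝ) (y : Fin m → ℝ) : oth p (ins p s y) = y := by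
  ext i; simp [oth]

@[simp] lemma ins_oth (x : Fin (m + 1) → ℝ) : ins p (x p) (oth p x) = x := by
  ext j
  rcases Fin.eq_self_or_eq_succAbove p j with rfl | ⟨i, rfl⟩
  · simp
  · simp [oth]

lemma continuous_oth : Continuous (oth p) := by unfold oth; fun_prop

lemma esq_ins (s : ℝ) (y : Fin m → ℝ) : esq (ins p s y) = s ^ 2 + esq y := by
  unfold esq
  rw [Fin.sum_univ_succAbove _ p]
  simp

lemma esq_eq (x : Fin (m + 1) → ℝ) : esq x = x p ^ 2 + esq (oth p x) := by
  rw [← esq_ins (p := p), ins_oth]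

/-- Fubini along the lines parallel to `e_p`. -/
lemma fubini_ins {F : (Fin (m + 1) → ℝ) → ℝ} (hF : Integrable F) :
    ∫ x, F x = ∫ y, ∫ s, F (ins p s y) := by
  have h := (volume_preserving_piFinSuccAbove (fun _ : Fin (m + 1) => ℝ) p).symm
  have e : ∀ q : ℝ × (Fin m → ℝ),
      (MeasurableEquiv.piFinSuccAbove (fun _ : Fin (m + 1) => ℝ) p).symm q = ins p q.1 q.2 := by
    intro q; rfl
  have hi : Integrable (fun q : ℝ × (Fin m → ℝ) => F (ins p q.1 q.2))
      (volume.prod volume) := by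
    have := (h.integrable_comp_emb (MeasurableEquiv.measurableEmbedding _)).mpr hF
    exact this
  have h2 := h.integral_comp (MeasurableEquiv.measurableEmbedding _) F
  rw [← h2]
  have h3 : ∫ q : ℝ × (Fin m → ℝ),
      F ((MeasurableEquiv.piFinSuccAbove (fun _ : Fin (m + 1) => ℝ) p).symm q) =
      ∫ q : ℝ × (Fin m → ℝ), F (ins p q.1 q.2) ∂(volume.prod volume) := rfl
  rw [h3, integral_prod_symm _ hi]

/-- The cylinder `{esq y ≤ r², |s| ≤ R}`. -/
def Cyl (p : Fin (m + 1)) (r R : ℝ) : Set (Fin (m + 1) → ℝ) :=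
  {x | esq (oth p x) ≤ r ^ 2 ∧ x p ∈ Set.Icc (-R) R}

lemma mem_Cyl_ins {r R s : ℝ} {y : Fin m → ℝ} :
    ins p s y ∈ Cyl p r R ↔ esq y ≤ r ^ 2 ∧ s ∈ Set.Icc (-R) R := by
  simp [Cyl]

lemma isCompact_Cyl (r R : ℝ) : IsCompact (Cyl p r R) := by
  have hc : IsClosed (Cyl p r R) := by
    apply IsClosed.inter
    · exact isClosed_le (continuous_esq.comp continuous_oth) continuous_const
    · exact isClosed_Icc.preimage (continuous_apply p)
  apply (isCompact_eball (N := m + 1) (|r| + |R|)).of_isClosed_subset hc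
  intro x hx
  show esq x ≤ (|r| + |R|) ^ 2
  have h1 : esq (oth p x) ≤ r ^ 2 := hx.1
  have h2 : x p ∈ Set.Icc (-R) R := hx.2
  rw [esq_eq (p := p)]
  have h3 : x p ^ 2 ≤ R ^ 2 := by nlinarith [h2.1, h2.2]
  have h4 : (|r| + |R|) ^ 2 = r ^ 2 + R ^ 2 + 2 * (|r| * |R|) := by
    rw [add_sq, sq_abs, sq_abs]; ring
  rw [h4]
  have : 0 ≤ |r| * |R| := by positivity
  linarith

/-- Fubini on the cylinder. -/
lemma integral_Cyl {F : (Fin (m + 1) → ℝ) → ℝ} {r R : ℝ} (hF : IntegrableOn F (Cyl p r R)) :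
    ∫ x in Cyl p r R, F x =
      ∫ y in {y : Fin m → ℝ | esq y ≤ r ^ 2}, ∫ s in Set.Icc (-R) R, F (ins p s y) := by
  have hm := (isCompact_Cyl (p := p) r R).measurableSet
  have hB := (isCompact_eball (N := m) r).measurableSet
  rw [← integral_indicator hm, fubini_ins (p := p) ((integrable_indicator_iff hm).mpr hF),
    ← integral_indicator hB]
  congr 1
  funext y
  by_cases hy : esq y ≤ r ^ 2
  · rw [Set.indicator_of_mem (by exact hy), ← integral_indicator measurableSet_Icc]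
    congr 1
    funext s
    by_cases hs : s ∈ Set.Icc (-R) R
    · rw [Set.indicator_of_mem (mem_Cyl_ins.mpr ⟨hy, hs⟩), Set.indicator_of_mem hs]
    · rw [Set.indicator_of_notMem (fun h => hs (mem_Cyl_ins.mp h).2), Set.indicator_of_notMem hs]
  · rw [Set.indicator_of_notMem (by exact hy)]
    rw [show (fun s => (Cyl p r R).indicator F (ins p s y)) = fun _ => 0 from ?_]
    · simp
    · funext s
      rw [Set.indicator_of_notMem (fun h => hy (mem_Cyl_ins.mp h).1)]

end Vale.Agent.P134.H3
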