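import Vale.Agent.P134.H3.Cyl

set_option linter.all false

open MeasureTheory Filter Topology

namespace Vale.Agent.P134.H3

open Vale.Agent.P134 Vale.Agent.P134.H160
open Vale.Agent.P134.H891 (Psi continuous_Psi)

variable {m : ℕ} {p : Fin (m + 1)} {u : (Fin (m + 1) → ℝ) → ℝ}

/-- step function -/
noncomputable def stp (t s : ℝ) : ℝ := if t < s then Psi 1 else 0

lemma Psi_one_eq : Psi 1 = c0 := by
  unfold Psi c0; norm_num

lemma Psi_eq_Ps : Psi = Ps := rfl

/-- tilt density in the direction `p` -/
noncomputable def ex (p : Fin (m + 1)) (u : (Fin (m + 1) → ℝ) → ℝ) (x : Fin (m + 1) → ℝ) : ℝ :=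
  (pd p u x - psi u x / √2) ^ 2

/-- The `L¹` distance to the step at `t` along a line. -/
noncomputable def KL (p : Fin (m + 1)) (u : (Fin (m + 1) → ℝ) → ℝ) (R t : ℝ) (y : Fin m → ℝ) : ℝ :=
  ∫ s in (-R)..R, |Psi (u (ins p s y)) - stp t s|

/-- Signed distance to the step at `t` along a line. -/
noncomputable def DL (p : Fin (m + 1)) (u : (Fin (m + 1) → ℝ) → ℝ) (R t : ℝ) (y : Fin m → ℝ) : ℝ :=
  ∫ s in (-R)..R, (stp t s - Psi (u (ins p s y)))

lemma stp_intervalIntegrable (t a b : ℝ) : IntervalIntegrable (stp t) volume a b := by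
  have h : stp t = (Set.Ioi t).indicator fun _ => Psi 1 := by
    ext s
    unfold stp
    by_cases h : t < s
    · rw [if_pos h, Set.indicator_of_mem (by exact h)]
    · rw [if_neg h, Set.indicator_of_notMem (by exact h)]
  rw [h]
  exact (intervalIntegrable_const (μ := volume) (a := a) (b := b) (c := Psi 1)).mono_fun
    ((measurable_const.indicator measurableSet_Ioi).aestronglyMeasurable)
    (Eventually.of_forall fun s => by
      show ‖(Set.Ioi t).indicator (fun _ => Psi 1) s‖ ≤ ‖Psi 1‖
      by_cases h : s ∈ Set.Ioi t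
      · rw [Set.indicator_of_mem h]
      · rw [Set.indicator_of_notMem h]; simp)

lemma int_stp {a t b : ℝ} (h1 : a ≤ t) (h2 : t ≤ b) : ∫ s in a..b, stp t s = Psi 1 * (b - t) := by
  rw [← intervalIntegral.integral_add_adjacent_intervals (stp_intervalIntegrable t a t)
    (stp_intervalIntegrable t t b)]
  have e1 : ∫ s in a..t, stp t s = 0 := by
    rw [intervalIntegral.integral_of_le h1]
    apply integral_eq_zero_of_ae
    rw [Filter.EventuallyEq, ae_restrict_iff' measurableSet_Ioc]
    exact Eventually.of_forall fun s hs => by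
      show stp t s = 0
      unfold stp; rw [if_neg (not_lt.mpr hs.2)]
  have e2 : ∫ s in t..b, stp t s = ∫ s in t..b, Psi 1 := by
    rw [intervalIntegral.integral_of_le h2, intervalIntegral.integral_of_le h2]
    apply setIntegral_congr_fun measurableSet_Ioc
    intro s hs
    show stp t s = Psi 1
    unfold stp; rw [if_pos hs.1]
  rw [e1, e2, intervalIntegral.integral_const, smul_eq_mul]; ring

section line

variable (hu : Sol u) (y : Fin m → ℝ)

lemma line_deriv (hu : Sol u) (y : Fin m → ℝ) (s : ℝ) :
    HasDerivAt (fun s => u (ins p s y)) (pd p u (ins p s y)) s := by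
  have h1 : HasDerivAt (fun s : ℝ => ins p s y) (Pi.single p 1) s := by
    simp_rw [ins_eq]
    simpa using ((hasDerivAt_id s).smul_const (Pi.single p (1:ℝ))).add_const (insL p y)
  exact (hu.c2.differentiable (by norm_num) (ins p s y)).hasFDerivAt.comp_hasDerivAt s h1

lemma line_cont (hu : Sol u) (y : Fin m → ℝ) : Continuous fun s => u (ins p s y) :=
  hu.c2.continuous.comp (continuous_ins_left p y)

lemma line_cont' (hu : Sol u) (y : Fin m → ℝ) : Continuous fun s => pd p u (ins p s y) :=
  (continuous_pd (hu.c2.of_le (by norm_num))).comp (continuous_ins_left p y)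

lemma KL_eq (hu : Sol u) (y : Fin m → ℝ) {R t : ℝ} (h1 : -R ≤ t) (h2 : t ≤ R) :
    KL p u R t y = (∫ s in (-R)..t, Ps (u (ins p s y))) + ∫ s in t..R, (c0 - Ps (u (ins p s y))) := by
  have hc : Continuous fun s => Psi (u (ins p s y)) := continuous_Psi.comp (line_cont hu y)
  have hi : ∀ a b, IntervalIntegrable (fun s => |Psi (u (ins p s y)) - stp t s|) volume a b :=
    fun a b => ((hc.intervalIntegrable a b).sub (stp_intervalIntegrable t a b)).abs
  unfold KL
  rw [← intervalIntegral.integral_add_adjacent_intervals (hi (-R) t) (hi t R)]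
  congr 1
  · rw [intervalIntegral.integral_of_le h1, intervalIntegral.integral_of_le h1]
    apply setIntegral_congr_fun measurableSet_Ioc
    intro s hs
    show |Psi (u (ins p s y)) - stp t s| = _
    unfold stp; rw [if_neg (not_lt.mpr hs.2), sub_zero, Psi_eq_Ps,
      abs_of_nonneg (Ps_nonneg (hu.bd _))]
  · rw [intervalIntegral.integral_of_le h2, intervalIntegral.integral_of_le h2]
    apply setIntegral_congr_fun measurableSet_Ioc
    intro s hs
    show |Psi (u (ins p s y)) - stp t s| = _
    unfold stp; rw [if_pos hs.1, Psi_one_eq, Psi_eq_Ps, abs_sub_comm,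
      abs_of_nonneg (sub_nonneg.mpr (Ps_le (hu.bd _)))]

lemma DL_eq (hu : Sol u) (y : Fin m → ℝ) {R t : ℝ} (h1 : -R ≤ t) (h2 : t ≤ R) :
    DL p u R t y = (∫ s in t..R, (c0 - Ps (u (ins p s y)))) - ∫ s in (-R)..t, Ps (u (ins p s y)) := by
  have hc : Continuous fun s => Ps (u (ins p s y)) := cont_Ps.comp (line_cont hu y)
  have hP : IntervalIntegrable (fun s => Psi (u (ins p s y))) volume (-R) R :=
    (continuous_Psi.comp (line_cont (p := p) hu y)).intervalIntegrable _ _
  unfold DL
  rw [intervalIntegral.integral_sub (stp_intervalIntegrable t _ _) hP, int_stp h1 h2,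
    intervalIntegral.integral_sub (continuous_const.intervalIntegrable _ _)
    (hc.intervalIntegrable _ _), intervalIntegral.integral_const, smul_eq_mul, Psi_one_eq]
  have := intervalIntegral.integral_add_adjacent_intervals (hc.intervalIntegrable (μ := volume) (-R) t)
    (hc.intervalIntegrable t R)
  have e : ∫ s in (-R)..R, Psi (u (ins p s y)) = ∫ s in (-R)..R, Ps (u (ins p s y)) := rfl
  rw [e, ← this]; ring

lemma DL_sub (hu : Sol u) (y : Fin m → ℝ) {R t a : ℝ} (h1 : -R ≤ t) (h2 : t ≤ R) (h3 : -R ≤ a)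
    (h4 : a ≤ R) : DL p u R t y = DL p u R a y - Psi 1 * (t - a) := by
  unfold DL
  have hP : IntervalIntegrable (fun s => Psi (u (ins p s y))) volume (-R) R :=
    (continuous_Psi.comp (line_cont (p := p) hu y)).intervalIntegrable _ _
  rw [intervalIntegral.integral_sub (stp_intervalIntegrable t _ _) hP,
    intervalIntegral.integral_sub (stp_intervalIntegrable a _ _) hP, int_stp h1 h2, int_stp h3 h4]
  ring

/-- Bound of the line distance by the signed distance and the energy excess. -/
theorem KL_le (hu : Sol u) (y : Fin m → ℝ) {R t : ℝ} (h1 : -R ≤ t) (h2 : t ≤ R) :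
    KL p u R t y ≤ |DL p u R t y| + 30 + 4 * R * ∫ s in (-R)..R, ex p u (ins p s y) := by
  have h3 := one_d (v := fun s => u (ins p s y)) (v' := fun s => pd p u (ins p s y))
    (line_deriv hu y) (line_cont' hu y) (fun s => hu.bd _) h1 h2
  have e : ∫ s in (-R)..R, (pd p u (ins p s y) - mm (u (ins p s y))) ^ 2 =
      ∫ s in (-R)..R, ex p u (ins p s y) := rfl
  rw [e] at h3
  rw [KL_eq hu y h1 h2, DL_eq hu y h1 h2]
  set K1 := ∫ s in (-R)..t, Ps (u (ins p s y))
  set K2 := ∫ s in t..R, (c0 - Ps (u (ins p s y)))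
  set E := ∫ s in (-R)..R, ex p u (ins p s y)
  rcases le_total K1 K2 with h | h
  · rw [min_eq_left h] at h3
    have := le_abs_self (K2 - K1)
    linarith
  · rw [min_eq_right h] at h3
    have := neg_abs_le (K2 - K1)
    linarith

end line

end Vale.Agent.P134.H3
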