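import Vale.Agent.P134.Bdl.B1

set_option linter.all false

open MeasureTheory Filter Topology

namespace Vale.Agent.P134.H3

open Vale.Agent.P134

variable {N : ℕ}

lemma th_smooth (k : ℕ) : ContDiff ℝ k th :=
  (Real.smoothTransition.contDiff (n := k)).comp (contDiff_const.sub contDiff_id)

lemma th_antitone : Antitone th := by
  intro a b h
  unfold th
  exact Real.smoothTransition.monotone (by linarith)

lemma dth_nonpos (t : ℝ) : deriv th t ≤ 0 := th_antitone.deriv_nonpos

/-- compact support set of the mollifier -/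
def KK (N : ℕ) : Set (Fin N → ℝ) := {z | rho Finset.univ z ≤ 2}

lemma isClosed_KK : IsClosed (KK N) :=
  isClosed_le (rho_contDiff (k := 0) _).continuous continuous_const

lemma isCompact_KK : IsCompact (KK N) := by
  apply (isCompact_box (n := N) 2).of_isClosed_subset isClosed_KK
  intro z hz
  rw [mem_box]
  intro i
  have h1 := sq_le_rho (S := Finset.univ) (Finset.mem_univ i) z
  have h2 : rho Finset.univ z ≤ 2 := hz
  rw [abs_le]
  constructor <;> nlinarith

lemma abs_le_of_mem_KK {z : Fin N → ℝ} (hz : z ∈ KK N) (i : Fin N) : |z i| ≤ 2 := by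
  have h1 := sq_le_rho (S := Finset.univ) (Finset.mem_univ i) z
  have h2 : rho Finset.univ z ≤ 2 := hz
  rw [abs_le]
  constructor <;> nlinarith

/-- unnormalised potential -/
noncomputable def P0 (z : Fin N → ℝ) : ℝ := th (rho Finset.univ z)

/-- unnormalised mollifier -/
noncomputable def q0 (z : Fin N → ℝ) : ℝ := -2 * deriv th (rho Finset.univ z)

lemma P0_contDiff (k : ℕ) : ContDiff ℝ k (P0 (N := N)) := (th_smooth k).comp (rho_contDiff _)

lemma dth_contDiff (k : ℕ) : ContDiff ℝ k (deriv th) := by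
  have h := th_smooth (k + 1)
  have h2 : ContDiff ℝ ((k : WithTop ℕ∞) + 1) th := by exact_mod_cast h
  rw [contDiff_succ_iff_deriv] at h2
  exact h2.2.2

lemma q0_contDiff (k : ℕ) : ContDiff ℝ k (q0 (N := N)) :=
  contDiff_const.mul ((dth_contDiff k).comp (rho_contDiff _))

lemma q0_nonneg (z : Fin N → ℝ) : 0 ≤ q0 z := by
  have := dth_nonpos (rho Finset.univ z)
  unfold q0; linarith

lemma P0_nonneg (z : Fin N → ℝ) : 0 ≤ P0 z := th_nonneg _

lemma P0_le_one (z : Fin N → ℝ) : P0 z ≤ 1 := th_le_one _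

lemma P0_zero {z : Fin N → ℝ} (h : z ∉ KK N) : P0 z = 0 := by
  apply th_zero
  have : ¬ rho Finset.univ z ≤ 2 := h
  linarith

lemma q0_zero {z : Fin N → ℝ} (h : z ∉ KK N) : q0 z = 0 := by
  have : ¬ rho Finset.univ z ≤ 2 := h
  unfold q0
  rw [th_deriv_of_gt (by linarith), mul_zero]

lemma P0_hcs : HasCompactSupport (P0 (N := N)) :=
  HasCompactSupport.intro isCompact_KK fun _ h => P0_zero h

lemma q0_hcs : HasCompactSupport (q0 (N := N)) :=
  HasCompactSupport.intro isCompact_KK fun _ h => q0_zero h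

lemma pd_P0 (i : Fin N) (z : Fin N → ℝ) : pd i P0 z = - (z i * q0 z) := by
  have h : pd i (P0 (N := N)) z = deriv th (rho Finset.univ z) * pd i (rho Finset.univ) z := by
    apply pd_comp (h := th) (f := rho Finset.univ)
    · exact ((th_smooth 1).differentiable (by norm_num)) _
    · exact ((rho_contDiff (k := 1) _).differentiable (by norm_num)) _
  rw [h, pd_rho]
  simp only [Finset.mem_univ, if_true]
  unfold q0; ring

lemma exists_dth_neg : ∃ t ∈ Set.Ioo (1:ℝ) 2, deriv th t = -1 := by
  obtain ⟨t, ht, h⟩ := exists_deriv_eq_slope th (by norm_num : (1:ℝ) < 2)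
    (th_smooth 1).continuous.continuousOn
    ((th_smooth 1).differentiable (by norm_num)).differentiableOn
  refine ⟨t, ht, ?_⟩
  rw [h, th_one le_rfl, th_zero le_rfl]; norm_num

/-- normalisation constant -/
noncomputable def kap (N : ℕ) : ℝ := ∫ z : Fin N → ℝ, q0 z

lemma kap_pos (hN : 0 < N) : 0 < kap N := by
  obtain ⟨t, ht, h⟩ := exists_dth_neg
  apply Continuous.integral_pos_of_hasCompactSupport_nonneg_nonzero
    (x := Pi.single (⟨0, hN⟩ : Fin N) (√t))
  · exact (q0_contDiff 0).continuous
  · exact q0_hcs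
  · exact q0_nonneg
  · have : rho Finset.univ (Pi.single (⟨0, hN⟩ : Fin N) (√t)) = t := by
      unfold rho
      rw [Finset.sum_eq_single (⟨0, hN⟩ : Fin N)]
      · simp only [Pi.single_eq_same]
        exact Real.sq_sqrt (by linarith [ht.1])
      · intro j _ hj; simp [Pi.single_eq_of_ne hj]
      · simp
    unfold q0
    rw [this, h]; norm_num

/-- the mollifier (integral one) and its potential: `∂ᵢ P = - zᵢ ρ` -/
noncomputable def mo (z : Fin N → ℝ) : ℝ := q0 z / kap N
noncomputable def po (z : Fin N → ℝ) : ℝ := P0 z / kap N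

lemma mo_contDiff (k : ℕ) : ContDiff ℝ k (mo (N := N)) := (q0_contDiff k).div_const _
lemma po_contDiff (k : ℕ) : ContDiff ℝ k (po (N := N)) := (P0_contDiff k).div_const _
lemma mo_zero {z : Fin N → ℝ} (h : z ∉ KK N) : mo z = 0 := by unfold mo; rw [q0_zero h, zero_div]
lemma po_zero {z : Fin N → ℝ} (h : z ∉ KK N) : po z = 0 := by unfold po; rw [P0_zero h, zero_div]
lemma mo_hcs : HasCompactSupport (mo (N := N)) :=
  HasCompactSupport.intro isCompact_KK fun _ h => mo_zero h
lemma po_hcs : HasCompactSupport (po (N := N)) :=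
  HasCompactSupport.intro isCompact_KK fun _ h => po_zero h

lemma mo_nonneg (hN : 0 < N) (z : Fin N → ℝ) : 0 ≤ mo z := div_nonneg (q0_nonneg z) (kap_pos hN).le
lemma po_nonneg (hN : 0 < N) (z : Fin N → ℝ) : 0 ≤ po z := div_nonneg (P0_nonneg z) (kap_pos hN).le

lemma pd_po (i : Fin N) (z : Fin N → ℝ) : pd i po z = - (z i * mo z) := by
  have h : pd i (po (N := N)) z = pd i P0 z / kap N := by
    have e : (po (N := N)) = fun z => (kap N)⁻¹ * P0 z := by
      ext z; unfold po; rw [div_eq_inv_mul]
    rw [e]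
    have := pd_mul (f := fun _ : Fin N → ℝ => (kap N)⁻¹) (g := P0) (x := z) (i := i)
      (differentiableAt_const _) (((P0_contDiff 1).differentiable (by norm_num)) _)
    rw [this, pd_const]; ring
  rw [h, pd_P0]; unfold mo; ring

lemma integral_mo (hN : 0 < N) : ∫ z : Fin N → ℝ, mo z = 1 := by
  unfold mo
  rw [integral_div]
  exact div_self (kap_pos hN).ne'

end Vale.Agent.P134.H3
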