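import Vale.Agent.P134.H3.Plane
import Vale.Agent.P134.H370.Basic

set_option linter.all false

open MeasureTheory Filter Topology

namespace Vale.Agent.P134.H3

open Vale.Agent.P134 Vale.Agent.P134.H160
open Vale.Agent.P134.H891 (Psi continuous_Psi ph)
open Vale.Agent.P134.H370 (Flat TL)

variable {m : ℕ}

lemma ex_le_TL {p : Fin (m + 1)} {u : (Fin (m + 1) → ℝ) → ℝ} (x : Fin (m + 1) → ℝ) :
    ex p u x ≤ TL u p x := by
  unfold ex TL
  have : 0 ≤ ∑ i ∈ Finset.univ.erase p, pd i u x ^ 2 := Finset.sum_nonneg fun _ _ => sq_nonneg _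
  linarith

lemma TL_continuous {p : Fin (m + 1)} {u : (Fin (m + 1) → ℝ) → ℝ} (hu : Sol u) :
    Continuous (TL u p) := by
  unfold TL
  have h1 : ∀ i, Continuous (pd i u) := fun i => continuous_pd (hu.c2.of_le (by norm_num))
  exact (continuous_finset_sum _ fun i _ => (h1 i).pow 2).add
    (((h1 p).sub (hu.psi_contDiff.continuous.div_const _)).pow 2)

lemma TL_nonneg {p : Fin (m + 1)} {u : (Fin (m + 1) → ℝ) → ℝ} (x : Fin (m + 1) → ℝ) :
    0 ≤ TL u p x := (ex_nonneg x).trans (ex_le_TL x)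

/-- On the cylinder the cut-off `ph (4R)` is at least `1/2`. -/
lemma ph_Cyl {p : Fin (m + 1)} {r R : ℝ} (hR : 0 < R) (hr0 : 0 ≤ r) (hr : r ≤ R)
    {x : Fin (m + 1) → ℝ} (hx : x ∈ Cyl p r R) : 1 / 2 ≤ ph (4 * R) x := by
  have h1 : esq (oth p x) ≤ r ^ 2 := hx.1
  have h2 : x p ∈ Set.Icc (-R) R := hx.2
  have h3 : esq x ≤ 2 * R ^ 2 := by
    rw [esq_eq (p := p)]
    nlinarith [h2.1, h2.2]
  have h4 : 7 / 8 ≤ H891.mm (4 * R) x := by
    unfold H891.mm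
    refine le_trans ?_ (H891.le_pp _)
    have : esq x / (4 * R) ^ 2 ≤ 1 / 8 := by
      rw [div_le_iff₀ (by positivity)]
      nlinarith
    linarith
  unfold ph
  nlinarith

lemma int_ex_le {p : Fin (m + 1)} {u : (Fin (m + 1) → ℝ) → ℝ} (hu : Sol u) {r R : ℝ} (hR : 0 < R)
    (hr0 : 0 ≤ r) (hr : r ≤ R) :
    ∫ x in Cyl p r R, ex p u x ≤ 2 * ∫ x, TL u p x * ph (4 * R) x := by
  have hC := isCompact_Cyl (p := p) r R
  have hphc : Continuous (ph (4 * R) : (Fin (m + 1) → ℝ) → ℝ) := (H891.ph_contDiff _).continuous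
  have hi : Integrable fun x => TL u p x * ph (4 * R) x :=
    ((TL_continuous hu).mul hphc).integrable_of_hasCompactSupport
      (H891.ph_hasCompactSupport (by positivity)).mul_left
  calc ∫ x in Cyl p r R, ex p u x ≤ ∫ x in Cyl p r R, 2 * (TL u p x * ph (4 * R) x) := by
        apply setIntegral_mono_on
        · exact (ex_continuous hu).continuousOn.integrableOn_compact hC
        · exact (continuous_const.mul ((TL_continuous hu).mul hphc)).continuousOn.integrableOn_compact hC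
        · exact hC.measurableSet
        · intro x hx
          have h1 := ph_Cyl hR hr0 hr hx
          have h2 := ex_le_TL (p := p) (u := u) x
          have h3 := TL_nonneg (p := p) (u := u) x
          nlinarith
    _ ≤ ∫ x, 2 * (TL u p x * ph (4 * R) x) := by
        apply setIntegral_le_integral (hi.const_mul 2)
        exact Eventually.of_forall fun x => by
          have h3 := TL_nonneg (p := p) (u := u) x
          have h4 := H891.ph_nonneg (4 * R) x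
          show 0 ≤ 2 * (TL u p x * ph (4 * R) x)
          positivity
    _ = _ := by rw [integral_const_mul]


/-- The bounds of the divergence equation (block 2.4). -/
def Bds (m : ℕ) (C : ℝ) : Prop := ∀ (u : (Fin (m + 1) → ℝ) → ℝ) (p : Fin (m + 1)) (a R H : ℝ),
  Sol u → 1 ≤ R → 0 ≤ H → H ≤ R / 8 → |a| ≤ H → Flat u p a (4 * R) H →
  ∃ ζ : ℝ → ℝ, ContDiff ℝ 1 ζ ∧ HasCompactSupport ζ ∧
    (∀ y, esq y ≤ R ^ 2 → |hsl p ζ a u y| ≤ C * (1 + H)) ∧
    (∫ y in {y : Fin m → ℝ | esq y ≤ R ^ 2}, ∑ i, |fsl p ζ u i y|) ≤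
      C * ∫ x, TL u p x * ph (4 * R) x ∧
    (∀ y, esq y ≤ R ^ 2 → |gsl p ζ u y| ≤ C / R ^ (m + 2)) ∧
    (∀ y, esq y ≤ R ^ 2 → |Psi 1 * hsl p ζ a u y - DL p u R a y| ≤ C)

/-- **New plane.** -/
def NPlane (m : ℕ) (C : ℝ) : Prop := ∀ (u : (Fin (m + 1) → ℝ) → ℝ) (p : Fin (m + 1))
  (a R H : ℝ), Sol u → 1 ≤ R → 0 ≤ H → |a| ≤ H → C * (1 + H) ≤ R → Flat u p a (4 * R) H →
  ∃ (a' : ℝ) (b : Fin (m + 1) → ℝ), b p = 0 ∧ |a' - a| ≤ C * (1 + H) ∧ |a'| ≤ C * (1 + H) ∧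
    (∀ i, |b i| ≤ C * (1 + H) / R) ∧ ∀ r, 1 ≤ r → r ≤ R / 4 →
      ∫ x in {x : Fin (m + 1) → ℝ | esq x ≤ r ^ 2},
        |Psi (u x) - if a' + ∑ j, b j * x j < x p then Psi 1 else 0| ≤
        C * (r ^ m + (r / R) ^ 2 * (1 + H) * r ^ m + R * ∫ x, TL u p x * ph (4 * R) x)

lemma NP_arith (m : ℕ) {C1 C2 R r H TI X I3 L : ℝ} (hC1 : 1 ≤ C1) (hC2 : 1 ≤ C2) (hR : 1 ≤ R)
    (hr : 1 ≤ r) (hH : 0 ≤ H) (hTI : 0 ≤ TI) (h3 : I3 ≤ 2 * TI)
    (hX : X ≤ C2 * (R * (C1 * TI) + R ^ (m + 2) * (C1 / R ^ (m + 2)) + (C1 + 1) * r ^ m +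
      C1 * (1 + H) * (r / R) ^ 2 * r ^ m + R * I3)) (hL : L ≤ X) :
    L ≤ (8 * C1 * C2 + 1 + C1) * (r ^ m + (r / R) ^ 2 * (1 + H) * r ^ m + R * TI) := by
  have hR0 : 0 < R := by linarith
  have e1 : R ^ (m + 2) * (C1 / R ^ (m + 2)) = C1 := by field_simp
  rw [e1] at hX
  have h1 : (1:ℝ) ≤ r ^ m := one_le_pow₀ hr
  have h4 : R * I3 ≤ 2 * (R * TI) := by nlinarith
  have w4 : 0 ≤ (r / R) ^ 2 * (1 + H) * r ^ m := by positivity
  have w5 : 0 ≤ R * TI := by positivity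
  have e2 : C1 * (1 + H) * (r / R) ^ 2 * r ^ m = C1 * ((r / R) ^ 2 * (1 + H) * r ^ m) := by ring
  have e3 : R * (C1 * TI) = C1 * (R * TI) := by ring
  rw [e2, e3] at hX
  generalize (r / R) ^ 2 * (1 + H) * r ^ m = Y at *
  generalize R * TI = Z at *
  generalize r ^ m = W at *
  have k1 : X ≤ C2 * (C1 * Z + C1 + (C1 + 1) * W + C1 * Y + 2 * Z) :=
    hX.trans (mul_le_mul_of_nonneg_left (by linarith) (by linarith))
  have k2 : C1 * Z + C1 + (C1 + 1) * W + C1 * Y + 2 * Z ≤ 4 * C1 * (W + Y + Z) := by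
    nlinarith
  have k3 : C2 * (4 * C1 * (W + Y + Z)) ≤ (8 * C1 * C2 + 1 + C1) * (W + Y + Z) := by
    have : 0 ≤ W + Y + Z := by linarith
    have h5 : 0 ≤ C1 * C2 := by positivity
    nlinarith [mul_nonneg h5 this]
  calc L ≤ X := hL
    _ ≤ _ := k1
    _ ≤ C2 * (4 * C1 * (W + Y + Z)) := mul_le_mul_of_nonneg_left k2 (by linarith)
    _ ≤ _ := k3

theorem NP_of (hm : 0 < m) {C1 : ℝ} (hC1 : 1 ≤ C1) (hB : Bds m C1) : ∃ C : ℝ, 1 ≤ C ∧ NPlane m C := by
  obtain ⟨C2, hC2, hcore⟩ := plane_core hm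
  have hC10 : 0 ≤ C1 := by linarith
  have hC20 : 0 ≤ C2 := by linarith
  have hC12 : 0 ≤ C1 * C2 := mul_nonneg hC10 hC20
  refine ⟨8 * C1 * C2 + 1 + C1, by nlinarith, ?_⟩
  intro u p a R H hu hR hH ha hCH hF
  have hR0 : 0 < R := by linarith
  have hCC : 1 ≤ C1 * C2 := by nlinarith
  have hH8 : H ≤ R / 8 := by nlinarith
  have hM : C2 * (C1 * (1 + H)) ≤ R := by nlinarith
  obtain ⟨ζ, hζ, hc, b1, b2, b3, b4⟩ := hB u p a R H hu hR hH hH8 ha hF
  obtain ⟨A, b, hA, hb, hint⟩ := hcore u p ζ a R (C1 * (1 + H))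
    (C1 * ∫ x, TL u p x * ph (4 * R) x) (C1 / R ^ (m + 2)) C1 hu hζ hc hR0 (by linarith) hM
    (by positivity) (by linarith) b1 b2 b3 b4
  refine ⟨a + A, ins p 0 b, by simp, ?_, ?_, ?_, ?_⟩
  · rw [add_sub_cancel_left]
    refine hA.trans ?_
    nlinarith
  · refine (abs_add_le _ _).trans ?_
    nlinarith
  · intro j
    rcases Fin.eq_self_or_eq_succAbove p j with rfl | ⟨i, rfl⟩
    · rw [ins_same, abs_zero]; positivity
    · rw [ins_succAbove]
      refine (hb i).trans ?_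
      apply div_le_div_of_nonneg_right _ hR0.le
      nlinarith
  · intro r hr1 hr4
    obtain ⟨-, h2⟩ := hint r (by linarith) hr4
    have h3 := gpd_ball_le (p := p) hu (a + A) b (r := r) (R := R) (by linarith) (by linarith)
    have h4 := int_ex_le (p := p) hu hR0 (r := r) (by linarith) (by linarith)
    have hTI : 0 ≤ ∫ x, TL u p x * ph (4 * R) x := integral_nonneg fun x => by
      have h3 := TL_nonneg (p := p) (u := u) x
      have h4 := H891.ph_nonneg (4 * R) x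
      show 0 ≤ TL u p x * ph (4 * R) x
      positivity
    exact NP_arith m hC1 hC2 hR hr1 hH hTI h4 h2 h3

end Vale.Agent.P134.H3
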