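import Vale.Agent.P134.H3.Line

set_option linter.all false

open MeasureTheory Filter Topology

namespace Vale.Agent.P134.H3

open Vale.Agent.P134 Vale.Agent.P134.H160
open Vale.Agent.P134.H891 (Psi continuous_Psi)

variable {m : ℕ}

lemma ex_continuous {p : Fin (m + 1)} {u : (Fin (m + 1) → ℝ) → ℝ} (hu : Sol u) :
    Continuous (ex p u) := by
  unfold ex
  exact ((continuous_pd (hu.c2.of_le (by norm_num))).sub
    (hu.psi_contDiff.continuous.div_const _)).pow 2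

lemma ex_nonneg {p : Fin (m + 1)} {u : (Fin (m + 1) → ℝ) → ℝ} (x : Fin (m + 1) → ℝ) :
    0 ≤ ex p u x := sq_nonneg _

lemma plane_arith (m : ℕ) {C0 R r M F1 G1 T1 I0 I1 I2 I3 V K : ℝ} (hC0 : 0 < C0) (hR : 0 < R)
    (hr0 : 0 ≤ r) (hM0 : 0 ≤ M) (hG1 : 0 ≤ G1) (hT1 : 0 ≤ T1) (p1 : 0 ≤ I1) (hf : I1 ≤ F1)
    (p3 : 0 ≤ I3) (hg2 : I2 ≤ (2 * R) ^ m * G1)
    (h5 : I0 ≤ C0 * (R * I1 + R ^ 2 * I2) + C0 * M * (r / R) ^ 2 * r ^ m)
    (h6 : V * (T1 + 30) ≤ (2 * r) ^ m * (T1 + 30))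
    (key : K ≤ I0 + V * (T1 + 30) + 4 * R * I3) :
    K ≤ (2 * (m + 1) * C0 + 2 ^ m * (C0 + 30) + 4) *
      (R * F1 + R ^ (m + 2) * G1 + (T1 + 1) * r ^ m + M * (r / R) ^ 2 * r ^ m + R * I3) := by
  have hmr : (0:ℝ) ≤ m := Nat.cast_nonneg m
  have h2m : (1:ℝ) ≤ 2 ^ m := one_le_pow₀ (by norm_num)
  have pF : 0 ≤ F1 := p1.trans hf
  have q1 : R * I1 ≤ R * F1 := mul_le_mul_of_nonneg_left hf hR.le
  have q2 : R ^ 2 * I2 ≤ 2 ^ m * (R ^ (m + 2) * G1) := by
    calc R ^ 2 * I2 ≤ R ^ 2 * ((2 * R) ^ m * G1) := mul_le_mul_of_nonneg_left hg2 (sq_nonneg _)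
      _ = _ := by rw [mul_pow]; ring
  have q3 : (2 * r) ^ m * (T1 + 30) ≤ 2 ^ m * 30 * ((T1 + 1) * r ^ m) := by
    rw [mul_pow]
    have : 0 ≤ (2:ℝ) ^ m * r ^ m := by positivity
    nlinarith
  have w1 : 0 ≤ R * F1 := by positivity
  have w2 : 0 ≤ R ^ (m + 2) * G1 := by positivity
  have w3 : 0 ≤ (T1 + 1) * r ^ m := by positivity
  have w4 : 0 ≤ M * (r / R) ^ 2 * r ^ m := by positivity
  have w5 : 0 ≤ R * I3 := by positivity
  have e4 : C0 * M * (r / R) ^ 2 * r ^ m = C0 * (M * (r / R) ^ 2 * r ^ m) := by ring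
  have e5 : (4:ℝ) * R * I3 = 4 * (R * I3) := by ring
  have e2 : C0 * (R * I1 + R ^ 2 * I2) = C0 * (R * I1) + C0 * (R ^ 2 * I2) := by ring
  rw [e2, e4] at h5
  rw [e5] at key
  generalize R * F1 = X1 at *
  generalize R ^ (m + 2) * G1 = X2 at *
  generalize (T1 + 1) * r ^ m = X3 at *
  generalize M * (r / R) ^ 2 * r ^ m = X4 at *
  generalize R * I3 = X5 at *
  have b1 : C0 * (R * I1) ≤ C0 * X1 := mul_le_mul_of_nonneg_left q1 hC0.le
  have b2 : C0 * (R ^ 2 * I2) ≤ C0 * (2 ^ m * X2) := mul_le_mul_of_nonneg_left q2 hC0.le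
  have m0 : 0 ≤ (m:ℝ) * C0 := by positivity
  have m1 : C0 ≤ 2 ^ m * C0 := by nlinarith
  have t1 : C0 * X1 ≤ 2 ^ m * C0 * X1 := mul_le_mul_of_nonneg_right m1 w1
  have t4 : C0 * X4 ≤ 2 ^ m * C0 * X4 := mul_le_mul_of_nonneg_right m1 w4
  have u1 : 0 ≤ (m:ℝ) * C0 * X1 := by positivity
  have u2 : 0 ≤ (m:ℝ) * C0 * X2 := by positivity
  have u3 : 0 ≤ (m:ℝ) * C0 * X3 := by positivity
  have u4 : 0 ≤ (m:ℝ) * C0 * X4 := by positivity
  have u5 : 0 ≤ (m:ℝ) * C0 * X5 := by positivity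
  have v1 : 0 ≤ (2:ℝ) ^ m * X1 := by positivity
  have v2 : 0 ≤ (2:ℝ) ^ m * X2 := by positivity
  have v3 : 0 ≤ (2:ℝ) ^ m * C0 * X3 := by positivity
  have v4 : 0 ≤ (2:ℝ) ^ m * X4 := by positivity
  have v5 : 0 ≤ (2:ℝ) ^ m * X5 := by positivity
  have v6 : 0 ≤ (2:ℝ) ^ m * C0 * X5 := by positivity
  have z1 : 0 ≤ C0 * X1 := by positivity
  have z2 : 0 ≤ C0 * X2 := by positivity
  have z3 : 0 ≤ C0 * X3 := by positivity
  have z4 : 0 ≤ C0 * X4 := by positivity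
  have z5 : 0 ≤ C0 * X5 := by positivity
  have e6 : (2 * (m + 1) * C0 + 2 ^ m * (C0 + 30) + 4) * (X1 + X2 + X3 + X4 + X5) =
      2 * (m * C0 * X1) + 2 * (m * C0 * X2) + 2 * (m * C0 * X3) + 2 * (m * C0 * X4) +
      2 * (m * C0 * X5) + 2 * (C0 * X1) + 2 * (C0 * X2) + 2 * (C0 * X3) + 2 * (C0 * X4) +
      2 * (C0 * X5) + 2 ^ m * C0 * X1 + C0 * (2 ^ m * X2) + 2 ^ m * C0 * X3 + 2 ^ m * C0 * X4 +
      2 ^ m * C0 * X5 + 30 * (2 ^ m * X1) + 30 * (2 ^ m * X2) + 2 ^ m * 30 * X3 +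
      30 * (2 ^ m * X4) + 30 * (2 ^ m * X5) + 4 * X1 + 4 * X2 + 4 * X3 + 4 * X4 + 4 * X5 := by ring
  rw [e6]
  linarith

/-- Abstract combination of the divergence equation, the affine approximation and the one
dimensional lemma. -/
theorem plane_core (hm : 0 < m) : ∃ C : ℝ, 1 ≤ C ∧ ∀ (u : (Fin (m + 1) → ℝ) → ℝ)
    (p : Fin (m + 1)) (ζ : ℝ → ℝ) (a R M F1 G1 T1 : ℝ), Sol u → ContDiff ℝ 1 ζ →
    HasCompactSupport ζ → 0 < R → |a| ≤ R / 2 → C * M ≤ R → 0 ≤ G1 → 0 ≤ T1 →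
    (∀ y, esq y ≤ R ^ 2 → |hsl p ζ a u y| ≤ M) →
    (∫ y in {y : Fin m → ℝ | esq y ≤ R ^ 2}, ∑ i, |fsl p ζ u i y|) ≤ F1 →
    (∀ y, esq y ≤ R ^ 2 → |gsl p ζ u y| ≤ G1) →
    (∀ y, esq y ≤ R ^ 2 → |Psi 1 * hsl p ζ a u y - DL p u R a y| ≤ T1) →
    ∃ (A : ℝ) (b : Fin m → ℝ), |A| ≤ C * M ∧ (∀ i, |b i| ≤ C * M / R) ∧
      ∀ r, 0 ≤ r → r ≤ R / 4 →
        (∀ y : Fin m → ℝ, esq y ≤ r ^ 2 → |a + A + ∑ i, b i * y i| ≤ R) ∧
        ∫ y in {y : Fin m → ℝ | esq y ≤ r ^ 2}, KL p u R (a + A + ∑ i, b i * y i) y ≤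
          C * (R * F1 + R ^ (m + 2) * G1 + (T1 + 1) * r ^ m + M * (r / R) ^ 2 * r ^ m +
            R * ∫ x in Cyl p r R, ex p u x) := by
  obtain ⟨C0, hC0, haff⟩ := affine_approx (N := m) hm
  set D : ℝ := 2 * (m + 1) * C0 + 2 ^ m * (C0 + 30) + 4 with hD
  have hmr : (0:ℝ) ≤ m := Nat.cast_nonneg m
  have h2m : (1:ℝ) ≤ 2 ^ m := one_le_pow₀ (by norm_num)
  have hD1 : 1 ≤ D := by rw [hD]; have : 0 ≤ 2 * ((m:ℝ) + 1) * C0 + 2 ^ m * (C0 + 30) := by positivity
                         linarith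
  have hDC : C0 ≤ D := by rw [hD]; nlinarith [mul_nonneg hmr hC0.le]
  have hDC2 : 2 * (m + 1) * C0 ≤ D := by rw [hD]; nlinarith [mul_nonneg hmr hC0.le]
  refine ⟨D, hD1, ?_⟩
  intro u p ζ a R M F1 G1 T1 hu hζ hc hR ha hCM hG1 hT1 hh hf hg hDL
  have hM0 : 0 ≤ M := (abs_nonneg _).trans (hh 0 (by simp only [esq, Pi.zero_apply]; simp; positivity))
  obtain ⟨A, b, hA, hb, hint⟩ := haff (hsl p ζ a u) (gsl p ζ u) (fsl p ζ u) R M hR
    (hsl_contDiff hu hζ.continuous hc a) (fun i => fsl_contDiff hu hζ.continuous hc i)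
    (gsl_continuous hu hζ hc) (fun y _ => div_eq hu hζ hc a y) hh
  refine ⟨A, b, hA.trans (mul_le_mul_of_nonneg_right hDC hM0), fun i => (hb i).trans ?_, ?_⟩
  · exact div_le_div_of_nonneg_right (mul_le_mul_of_nonneg_right hDC hM0) hR.le
  intro r hr0 hr
  have hrR : r ≤ R := by linarith
  have habs : ∀ y : Fin m → ℝ, esq y ≤ r ^ 2 → |a + A + ∑ i, b i * y i| ≤ R := by
    intro y hy
    have hyi : ∀ i, |y i| ≤ r := fun i => by
      have m1 := sq_le_rho (S := Finset.univ) (Finset.mem_univ i) y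
      have m2 : rho Finset.univ y ≤ r ^ 2 := hy
      have m3 := sq_le_sq.mp (m1.trans m2)
      rwa [abs_of_nonneg hr0] at m3
    have h1 : |∑ i, b i * y i| ≤ m * (C0 * M) := by
      refine (Finset.abs_sum_le_sum_abs _ _).trans ?_
      calc ∑ i, |b i * y i| ≤ ∑ _i : Fin m, C0 * M := by
            apply Finset.sum_le_sum
            intro i _
            rw [abs_mul]
            calc |b i| * |y i| ≤ (C0 * M / R) * R :=
                  mul_le_mul (hb i) ((hyi i).trans hrR) (abs_nonneg _) (by positivity)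
              _ = C0 * M := by field_simp
        _ = m * (C0 * M) := by simp
    have h2 : (m + 1) * (C0 * M) ≤ R / 2 := by
      have := mul_le_mul_of_nonneg_right hDC2 hM0
      nlinarith
    have h3 : |a + A + ∑ i, b i * y i| ≤ |a| + |A| + |∑ i, b i * y i| :=
      (abs_add_le _ _).trans (add_le_add (abs_add_le _ _) le_rfl)
    nlinarith
  refine ⟨habs, ?_⟩
  have hBr := isCompact_eball (N := m) r
  have hBR := isCompact_eball (N := m) R
  have hsub : ∀ y : Fin m → ℝ, esq y ≤ r ^ 2 → esq y ≤ R ^ 2 := fun y hy => by nlinarith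
  -- pointwise bound
  have pt : ∀ y : Fin m → ℝ, esq y ≤ r ^ 2 → KL p u R (a + A + ∑ i, b i * y i) y ≤
      |hsl p ζ a u y - A - ∑ i, b i * y i| + (T1 + 30) +
        4 * R * ∫ s in Set.Icc (-R) R, ex p u (ins p s y) := by
    intro y hy
    have h1 := abs_le.mp (habs y hy)
    have ha2 := abs_le.mp ha
    have h2 := KL_le (p := p) hu y h1.1 h1.2
    rw [DL_sub hu y h1.1 h1.2 (a := a) (by linarith) (by linarith)] at h2
    have h3 := hDL y (hsub y hy)
    have h4 : |DL p u R a y - Psi 1 * (a + A + ∑ i, b i * y i - a)| ≤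
        T1 + |hsl p ζ a u y - A - ∑ i, b i * y i| := by
      have e : DL p u R a y - Psi 1 * (a + A + ∑ i, b i * y i - a) =
          -(Psi 1 * hsl p ζ a u y - DL p u R a y) +
            Psi 1 * (hsl p ζ a u y - A - ∑ i, b i * y i) := by ring
      rw [e]
      refine (abs_add_le _ _).trans ?_
      rw [abs_neg, abs_mul, Psi_one_eq, abs_of_pos c0_pos]
      rw [Psi_one_eq] at h3
      have := mul_le_mul_of_nonneg_right c0_le_one (abs_nonneg (hsl p ζ a u y - A - ∑ i, b i * y i))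
      linarith
    have e2 : ∫ s in (-R)..R, ex p u (ins p s y) = ∫ s in Set.Icc (-R) R, ex p u (ins p s y) := by
      rw [intervalIntegral.integral_of_le (by linarith), integral_Icc_eq_integral_Ioc]
    rw [e2] at h2
    linarith
  have hc1 : Continuous fun y : Fin m → ℝ => |hsl p ζ a u y - A - ∑ i, b i * y i| := by
    have := (hsl_contDiff (p := p) hu hζ.continuous hc a).continuous
    fun_prop
  have hc2 : Continuous fun y : Fin m → ℝ => ∫ s in Set.Icc (-R) R, ex p u (ins p s y) := by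
    apply continuous_parametric_integral_of_continuous _ isCompact_Icc
    simp only [Function.uncurry_def]
    exact (ex_continuous hu).comp ((continuous_ins p).comp (continuous_snd.prodMk continuous_fst))
  have i1 : IntegrableOn (fun y : Fin m → ℝ => |hsl p ζ a u y - A - ∑ i, b i * y i|)
      {y : Fin m → ℝ | esq y ≤ r ^ 2} := hc1.continuousOn.integrableOn_compact hBr
  have i2 : IntegrableOn (fun y : Fin m → ℝ => T1 + 30)
      {y : Fin m → ℝ | esq y ≤ r ^ 2} := continuous_const.continuousOn.integrableOn_compact hBr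
  have i3 : IntegrableOn (fun y : Fin m → ℝ => 4 * R * ∫ s in Set.Icc (-R) R, ex p u (ins p s y))
      {y : Fin m → ℝ | esq y ≤ r ^ 2} :=
    (continuous_const.mul hc2).continuousOn.integrableOn_compact hBr
  have key : ∫ y in {y : Fin m → ℝ | esq y ≤ r ^ 2}, KL p u R (a + A + ∑ i, b i * y i) y ≤
      (∫ y in {y : Fin m → ℝ | esq y ≤ r ^ 2}, |hsl p ζ a u y - A - ∑ i, b i * y i|) +
      (volume {y : Fin m → ℝ | esq y ≤ r ^ 2}).toReal * (T1 + 30) +
        4 * R * ∫ x in Cyl p r R, ex p u x := by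
    have h1 : ∫ y in {y : Fin m → ℝ | esq y ≤ r ^ 2}, KL p u R (a + A + ∑ i, b i * y i) y ≤
        ∫ y in {y : Fin m → ℝ | esq y ≤ r ^ 2},
          (|hsl p ζ a u y - A - ∑ i, b i * y i| + (T1 + 30) +
            4 * R * ∫ s in Set.Icc (-R) R, ex p u (ins p s y)) := by
      apply integral_mono_of_nonneg
      · refine Eventually.of_forall fun y => ?_
        exact intervalIntegral.integral_nonneg (by linarith) fun s _ => abs_nonneg _
      · exact (i1.add i2).add i3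
      · exact (ae_restrict_iff' hBr.measurableSet).mpr (Eventually.of_forall fun y hy => pt y hy)
    refine h1.trans (le_of_eq ?_)
    have i12 : IntegrableOn (fun y : Fin m → ℝ => |hsl p ζ a u y - A - ∑ i, b i * y i| +
      (T1 + 30)) {y : Fin m → ℝ | esq y ≤ r ^ 2} := i1.add i2
    rw [integral_add i12 i3, integral_add i1 i2, integral_const_mul, setIntegral_const, smul_eq_mul,
      integral_Cyl ((ex_continuous hu).continuousOn.integrableOn_compact (isCompact_Cyl r R))]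
    rfl
  have hg2 : ∫ y in {y : Fin m → ℝ | esq y ≤ R ^ 2}, |gsl p ζ u y| ≤ (2 * R) ^ m * G1 := by
    have h1 : ∫ y in {y : Fin m → ℝ | esq y ≤ R ^ 2}, |gsl p ζ u y| ≤
        ∫ y in {y : Fin m → ℝ | esq y ≤ R ^ 2}, G1 := by
      apply setIntegral_mono_on
      · exact (gsl_continuous hu hζ hc).abs.continuousOn.integrableOn_compact hBR
      · exact continuous_const.continuousOn.integrableOn_compact hBR
      · exact hBR.measurableSet
      · exact hg
    refine h1.trans ?_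
    rw [setIntegral_const, smul_eq_mul]
    exact mul_le_mul_of_nonneg_right (volume_eball_le hR.le) hG1
  have h5 := hint r hr0 hr
  have h6 : (volume {y : Fin m → ℝ | esq y ≤ r ^ 2}).toReal * (T1 + 30) ≤
      (2 * r) ^ m * (T1 + 30) := mul_le_mul_of_nonneg_right (volume_eball_le hr0) (by linarith)
  have p3 : 0 ≤ ∫ x in Cyl p r R, ex p u x := integral_nonneg fun x => ex_nonneg x
  have p1 : 0 ≤ ∫ y in {y : Fin m → ℝ | esq y ≤ R ^ 2}, ∑ i, |fsl p ζ u i y| :=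
    integral_nonneg fun y => Finset.sum_nonneg fun _ _ => abs_nonneg _
  have := plane_arith m hC0 hR hr0 hM0 hG1 hT1 p1 hf p3 hg2 h5 h6 key
  rw [← hD] at this
  exact this


lemma sum_ins (p : Fin (m + 1)) (b : Fin m → ℝ) (x : Fin (m + 1) → ℝ) :
    ∑ j, ins p 0 b j * x j = ∑ i, b i * oth p x i := by
  rw [Fin.sum_univ_succAbove _ p]
  simp [oth]

/-- the density `|Ψ(u) - Ψ(1) 1_{x_p > α + b·x}|` -/
noncomputable def gpd (p : Fin (m + 1)) (u : (Fin (m + 1) → ℝ) → ℝ) (α : ℝ)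
    (b : Fin (m + 1) → ℝ) (x : Fin (m + 1) → ℝ) : ℝ :=
  |Psi (u x) - if α + ∑ j, b j * x j < x p then Psi 1 else 0|

lemma gpd_eq (p : Fin (m + 1)) (u : (Fin (m + 1) → ℝ) → ℝ) (α : ℝ) (b : Fin m → ℝ)
    (x : Fin (m + 1) → ℝ) :
    gpd p u α (ins p 0 b) x = |Psi (u x) - stp (α + ∑ i, b i * oth p x i) (x p)| := by
  unfold gpd stp
  rw [sum_ins]

lemma gpd_nonneg (p : Fin (m + 1)) (u : (Fin (m + 1) → ℝ) → ℝ) (α : ℝ)
    (b : Fin (m + 1) → ℝ) (x : Fin (m + 1) → ℝ) : 0 ≤ gpd p u α b x := abs_nonneg _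

lemma gpd_measurable {p : Fin (m + 1)} {u : (Fin (m + 1) → ℝ) → ℝ} (hu : Sol u) (α : ℝ)
    (b : Fin (m + 1) → ℝ) : Measurable (gpd p u α b) := by
  unfold gpd
  apply Measurable.abs
  apply Measurable.sub
  · exact (continuous_Psi.comp hu.c2.continuous).measurable
  · apply Measurable.ite _ measurable_const measurable_const
    apply IsOpen.measurableSet
    exact isOpen_lt (by fun_prop) (continuous_apply p)

lemma gpd_le {p : Fin (m + 1)} {u : (Fin (m + 1) → ℝ) → ℝ} (hu : Sol u) (α : ℝ)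
    (b : Fin (m + 1) → ℝ) (x : Fin (m + 1) → ℝ) : gpd p u α b x ≤ 1 := by
  unfold gpd
  have h1 := Ps_nonneg (hu.bd x)
  have h2 := Ps_le (hu.bd x)
  have h3 := c0_le_one
  rw [Psi_one_eq, Psi_eq_Ps]
  split_ifs
  · rw [abs_le]; constructor <;> linarith
  · rw [abs_le]; constructor <;> linarith

lemma gpd_integrableOn {p : Fin (m + 1)} {u : (Fin (m + 1) → ℝ) → ℝ} (hu : Sol u) (α : ℝ)
    (b : Fin (m + 1) → ℝ) {S : Set (Fin (m + 1) → ℝ)} (hS : IsCompact S) :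
    IntegrableOn (gpd p u α b) S := by
  have h1 : IntegrableOn (fun _ : Fin (m + 1) → ℝ => (1:ℝ)) S :=
    continuous_const.continuousOn.integrableOn_compact hS
  refine Integrable.mono' h1 (gpd_measurable hu α b).aestronglyMeasurable
    (Eventually.of_forall fun x => ?_)
  rw [Real.norm_eq_abs, abs_of_nonneg (gpd_nonneg _ _ _ _ _)]
  exact gpd_le hu α b x

lemma gpd_ball_le {p : Fin (m + 1)} {u : (Fin (m + 1) → ℝ) → ℝ} (hu : Sol u) (α : ℝ)
    (b : Fin m → ℝ) {r R : ℝ} (hr : 0 ≤ r) (hrR : r ≤ R) :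
    ∫ x in {x : Fin (m + 1) → ℝ | esq x ≤ r ^ 2}, gpd p u α (ins p 0 b) x ≤
      ∫ y in {y : Fin m → ℝ | esq y ≤ r ^ 2}, KL p u R (α + ∑ i, b i * y i) y := by
  have hC := isCompact_Cyl (p := p) r R
  have hsub : {x : Fin (m + 1) → ℝ | esq x ≤ r ^ 2} ⊆ Cyl p r R := by
    intro x hx
    have h1 : esq x ≤ r ^ 2 := hx
    rw [esq_eq (p := p)] at h1
    have h2 := esq_nonneg (oth p x)
    refine ⟨by nlinarith [sq_nonneg (x p)], ?_⟩
    have h3 : x p ^ 2 ≤ R ^ 2 := by nlinarith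
    exact abs_le.mp (abs_le_of_sq_le_sq h3 (hr.trans hrR))
  calc ∫ x in {x : Fin (m + 1) → ℝ | esq x ≤ r ^ 2}, gpd p u α (ins p 0 b) x
      ≤ ∫ x in Cyl p r R, gpd p u α (ins p 0 b) x := by
        apply setIntegral_mono_set (gpd_integrableOn hu _ _ hC)
        · exact Eventually.of_forall fun x => gpd_nonneg _ _ _ _ _
        · exact hsub.eventuallyLE
    _ = ∫ y in {y : Fin m → ℝ | esq y ≤ r ^ 2}, ∫ s in Set.Icc (-R) R,
          gpd p u α (ins p 0 b) (ins p s y) := integral_Cyl (gpd_integrableOn hu _ _ hC)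
    _ = _ := by
        congr 1
        funext y
        unfold KL
        rw [intervalIntegral.integral_of_le (by linarith), integral_Icc_eq_integral_Ioc]
        congr 1
        funext s
        rw [gpd_eq]
        simp

end Vale.Agent.P134.H3
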